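import Crest.Agent.N76.II.B.Defs

/-! # Row 76, part II D1: the bush estimate (helper28). -/

set_option autoImplicit false

open MeasureTheory Set Metric
open scoped ENNReal RealInnerProductSpace

namespace Crest.Agent.N76.II.B

open Crest.Agent.N76.Red (V)
open Crest.Agent.N76.G

section General

variable {E : Type*} [NormedAddCommGroup E] [NormedSpace ℝ E] [FiniteDimensional ℝ E]
  [MeasurableSpace E] [BorelSpace E] (μ : Measure E) [μ.IsAddHaarMeasure]

theorem integrable_exp_neg_norm : Integrable (fun x : E => Real.exp (-‖x‖)) μ := by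
  set n := Module.finrank ℝ E + 1 with hn
  have h := (integrable_one_add_norm (E := E) (μ := μ) (r := (n : ℝ))
    (by rw [hn]; push_cast; linarith)).const_mul (Real.exp 1 * n.factorial)
  refine h.mono' (by fun_prop) (.of_forall fun x => ?_)
  have h1 := Real.pow_div_factorial_le_exp (1 + ‖x‖) (by positivity) n
  have h2 : (0 : ℝ) < n.factorial := by exact_mod_cast n.factorial_pos
  rw [Real.norm_eq_abs, abs_of_pos (Real.exp_pos _), Real.rpow_neg (by positivity),
    Real.rpow_natCast, ← div_eq_mul_inv, le_div_iff₀ (by positivity), Real.exp_neg,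
    inv_mul_le_iff₀ (Real.exp_pos _)]
  rw [div_le_iff₀ h2, Real.exp_add] at h1
  linarith

theorem integral_exp_neg_dist (p : E) {l : ℝ} (hl : 0 < l) :
    Integrable (fun u : E => Real.exp (-(dist u p / l))) μ ∧
    ∫ u : E, Real.exp (-(dist u p / l)) ∂μ =
      l ^ Module.finrank ℝ E * ∫ x : E, Real.exp (-‖x‖) ∂μ := by
  have e : (fun u : E => Real.exp (-(dist u p / l))) =
      fun u => (fun x : E => Real.exp (-‖l⁻¹ • x‖)) (u - p) := by
    ext u
    simp only [dist_eq_norm, norm_smul, norm_inv, Real.norm_eq_abs, abs_of_pos hl, div_eq_inv_mul]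
  rw [e]
  refine ⟨((integrable_exp_neg_norm μ).comp_smul (inv_ne_zero hl.ne')).comp_sub_right p, ?_⟩
  rw [integral_sub_right_eq_self (fun x : E => Real.exp (-‖l⁻¹ • x‖)),
    Measure.integral_comp_inv_smul_of_nonneg μ (fun x : E => Real.exp (-‖x‖)) hl.le, smul_eq_mul]

theorem lintegral_add_smul {f : E → ℝ≥0∞} (hf : Measurable f) (x₀ : E) {c : ℝ} (hc : c ≠ 0) :
    ∫⁻ x, f (x₀ + c • x) ∂μ = ENNReal.ofReal |(c ^ Module.finrank ℝ E)⁻¹| * ∫⁻ x, f x ∂μ := by
  have h := lintegral_map (μ := μ) (f := fun x => f (x₀ + x)) (g := fun x : E => c • x)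
    (hf.comp (measurable_const_add x₀)) (measurable_const_smul c)
  rw [← h, Measure.map_addHaar_smul μ hc, lintegral_smul_measure, lintegral_add_left_eq_self,
    smul_eq_mul]

end General

variable {d : ℕ}

instance isAddHaarMeasure_volume_spacetime : (volume : Measure (V d × ℝ)).IsAddHaarMeasure :=
  Measure.prod.instIsAddHaarMeasure _ _

theorem continuous_dens {ι : Type*} (X : Finset ι) (p : ι → V d × ℝ) (w : ι → ℝ) (l : ℝ) :
    Continuous (dens X p w l) := by
  unfold dens; fun_prop

theorem dens_nonneg {ι : Type*} (X : Finset ι) (p : ι → V d × ℝ) {w : ι → ℝ}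
    (hw : ∀ i ∈ X, 0 ≤ w i) {l : ℝ} (hl : 0 < l) (u : V d × ℝ) : 0 ≤ dens X p w l u :=
  div_nonneg (Finset.sum_nonneg fun i hi => mul_nonneg (hw i hi) (Real.exp_pos _).le)
    (by positivity)

/-- total mass of the smooth density -/
theorem integral_dens {ι : Type*} (X : Finset ι) (p : ι → V d × ℝ) (w : ι → ℝ) {l : ℝ}
    (hl : 0 < l) : Integrable (dens X p w l) ∧
    ∫ u, dens X p w l u = (∑ i ∈ X, w i) * ∫ x : V d × ℝ, Real.exp (-‖x‖) := by
  have hi : ∀ i ∈ X, Integrable fun u : V d × ℝ => w i * Real.exp (-(dist u (p i) / l)) :=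
    fun i _ => (integral_exp_neg_dist volume (p i) hl).1.const_mul _
  unfold dens
  refine ⟨(integrable_finsetSum X hi).div_const _, ?_⟩
  rw [integral_div, integral_finsetSum X hi, Finset.sum_mul, Finset.sum_div]
  refine Finset.sum_congr rfl fun i _ => ?_
  rw [integral_const_mul, (integral_exp_neg_dist volume (p i) hl).2]
  have : Module.finrank ℝ (V d × ℝ) = d + 1 := by simp [Module.finrank_prod]
  rw [this]; field_simp

theorem pos_thru (u : V d × ℝ) (ζ : V d) (s : ℝ) :
    pos s (thru u ζ) = u.1 + (2 * (u.2 - s)) • ζ := by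
  simp only [pos, thru, mul_sub, sub_smul]; abel

theorem bush (d : ℕ) : BushStmt d := by
  set K : ℝ := ∫ x : V d × ℝ, Real.exp (-‖x‖) with hK
  have hK0 : 0 ≤ K := integral_nonneg fun _ => (Real.exp_pos _).le
  set v : ℝ := (volume (closedBall (0 : V d) 3)).toReal with hv
  have hv0 : 0 ≤ v := ENNReal.toReal_nonneg
  have hv1 : volume (closedBall (0 : V d) 3) = ENNReal.ofReal v :=
    (ENNReal.ofReal_toReal measure_closedBall_lt_top.ne).symm
  refine ⟨2 * v + K, by positivity, fun ι X p l A R σ u hl hA hR hσ => ?_⟩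
  have hτ : 0 < σ * R := by positivity
  set τ := σ * R with hτd
  set D : V d × ℝ → ℝ≥0∞ := fun z => ENNReal.ofReal (dens X p (fun _ => 1) l z) with hD
  have hDm : Measurable D := (continuous_dens X p _ l).measurable.ennreal_ofReal
  have hD0 := dens_nonneg X p (w := fun _ => 1) (fun _ _ => zero_le_one) hl
  have hDi : ∫⁻ z, D z = ENNReal.ofReal (X.card * K) := by
    rw [hD, ← ofReal_integral_eq_lintegral_ofReal (integral_dens X p _ hl).1 (.of_forall hD0),
      (integral_dens X p _ hl).2]
    simp [hK]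
  have hN : (0 : ℝ) ≤ X.card := Nat.cast_nonneg _
  generalize (X.card : ℝ) = N at hDi hN ⊢
  clear_value K v τ
  set I : Set ℝ := closedBall u.2 τ with hI
  have hIm : MeasurableSet I := measurableSet_closedBall
  set G : V d → ℝ → ℝ≥0∞ := fun ζ s => Iᶜ.indicator 1 s * D (u.1 + (2 * (u.2 - s)) • ζ, s) with hG
  have hGm : Measurable (Function.uncurry G) :=
    ((measurable_one.indicator hIm.compl).comp measurable_snd).mul (hDm.comp (by fun_prop))
  have h1 : ∀ ζ : V d, ENNReal.ofReal (xray (cm X p l A) (-(4 * R)) (4 * R) (thru u ζ)) ≤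
      ENNReal.ofReal (A * (2 * τ)) + ∫⁻ s, G ζ s := fun ζ => by
    have hc0 : ∀ z, 0 ≤ cm X p l A z := fun z => le_min hA (hD0 z)
    rw [xray, intervalIntegral.integral_of_le (by linarith)]
    calc ENNReal.ofReal (∫ s in Ioc (-(4 * R)) (4 * R), cm X p l A (pos s (thru u ζ), s))
        ≤ ∫⁻ s in Ioc (-(4 * R)) (4 * R), ‖cm X p l A (pos s (thru u ζ), s)‖ₑ :=
          (Real.ofReal_le_enorm _).trans (enorm_integral_le_lintegral_enorm _)
      _ ≤ ∫⁻ s, ‖cm X p l A (pos s (thru u ζ), s)‖ₑ := setLIntegral_le_lintegral _ _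
      _ ≤ ∫⁻ s, (I.indicator (fun _ => ENNReal.ofReal A) s + G ζ s) := by
          refine lintegral_mono fun s => ?_
          rw [Real.enorm_eq_ofReal (hc0 _), pos_thru]
          by_cases hs : s ∈ I
          · rw [indicator_of_mem hs]
            exact le_add_right (ENNReal.ofReal_le_ofReal (min_le_left _ _))
          · simp only [hG, indicator_of_mem (mem_compl hs), Pi.one_apply, one_mul]
            exact le_add_left (ENNReal.ofReal_le_ofReal (min_le_right _ _))
      _ = _ := by
          rw [lintegral_add_left (measurable_const.indicator hIm), lintegral_indicator_const hIm,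
            hI, Real.volume_closedBall, ENNReal.ofReal_mul hA]
  have h2 : ∫⁻ ζ, ∫⁻ s, G ζ s ≤ ENNReal.ofReal (K * (N / τ ^ d)) := by
    rw [lintegral_lintegral_swap hGm.aemeasurable]
    calc ∫⁻ s, ∫⁻ ζ, G ζ s ≤ ∫⁻ s, ENNReal.ofReal (τ ^ d)⁻¹ * ∫⁻ x, D (x, s) := by
          refine lintegral_mono fun s => ?_
          by_cases hs : s ∈ I
          · simp [hG, hs]
          simp only [hG, indicator_of_mem (mem_compl hs), Pi.one_apply, one_mul]
          have hs' : τ < |u.2 - s| := by
            rwa [hI, mem_closedBall, dist_comm, Real.dist_eq, not_le] at hs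
          have hne : 2 * (u.2 - s) ≠ 0 := fun h => by
            rw [show u.2 - s = 0 by linarith, abs_zero] at hs'; linarith
          rw [lintegral_add_smul volume (f := fun x => D (x, s)) (hDm.comp (by fun_prop)) _ hne]
          refine mul_le_mul' (ENNReal.ofReal_le_ofReal ?_) le_rfl
          rw [finrank_euclideanSpace_fin, abs_inv, abs_pow, abs_mul, abs_two]
          gcongr
          linarith
      _ = ENNReal.ofReal (τ ^ d)⁻¹ * ∫⁻ z, D z := by
          rw [lintegral_const_mul' _ _ ENNReal.ofReal_ne_top, Measure.volume_eq_prod,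
            lintegral_prod_symm _ hDm.aemeasurable]
      _ = _ := by
          rw [hDi, ← ENNReal.ofReal_mul (by positivity)]
          congr 1; field_simp
  calc _ ≤ ∫⁻ ζ in closedBall (0 : V d) 3, (ENNReal.ofReal (A * (2 * τ)) + ∫⁻ s, G ζ s) :=
        lintegral_mono h1
    _ ≤ ENNReal.ofReal (A * (2 * τ)) * ENNReal.ofReal v + ENNReal.ofReal (K * (N / τ ^ d)) := by
        rw [lintegral_add_left measurable_const, setLIntegral_const, hv1]
        exact add_le_add le_rfl ((setLIntegral_le_lintegral _ _).trans h2)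
    _ ≤ _ := by
        rw [← ENNReal.ofReal_mul (by positivity), ← ENNReal.ofReal_add (by positivity)
          (by positivity)]
        refine ENNReal.ofReal_le_ofReal ?_
        have a1 : 0 ≤ K * (A * τ) := by positivity
        have a2 : 0 ≤ v * (N / τ ^ d) := by positivity
        nlinarith

end Crest.Agent.N76.II.B
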