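import Crest.Agent.N76.II.B.Main

/-! # Row 76, part II B+D: the choice of the parameters (helper8). -/

set_option autoImplicit false

open MeasureTheory Set Metric Filter
open scoped ENNReal RealInnerProductSpace

namespace Crest.Agent.N76.II.B

open Crest.Agent.N76.Red (V ph)
open Crest.Agent.N76.G

lemma exists_R (n : ℕ) {α δ : ℝ} (hα : 0 < α) (hδ : 0 < δ) (C₀ R₀ : ℝ) : ∃ R₁ : ℝ, 1 ≤ R₁ ∧
    ∀ R, R₁ ≤ R → R₀ ≤ R ∧ C₀ ≤ R ^ α ∧ (∀ j : ℕ, (2 : ℝ) ^ j ≤ R → (j : ℝ) < R ^ δ) ∧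
      R * (3 * R) ^ n * (2 * Real.exp (1 - R ^ α)) ≤ 1 := by
  have h1 := eventually_ge_atTop R₀
  have h2 := (tendsto_rpow_atTop hα).eventually_ge_atTop C₀
  have h3 := (isLittleO_log_rpow_atTop hδ).bound (by norm_num : (0 : ℝ) < 1 / 2)
  have h4 := ((tendsto_rpow_mul_exp_neg_mul_atTop_nhds_zero (((n : ℝ) + 1) / α) 1 one_pos).comp
    (tendsto_rpow_atTop hα)).eventually_le_const
    (by positivity : (0 : ℝ) < 1 / (3 ^ n * (2 * Real.exp 1)))
  obtain ⟨R₁, h⟩ := eventually_atTop.1 (h1.and (h2.and (h3.and h4)))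
  refine ⟨max R₁ 1, le_max_right _ _, fun R hR => ?_⟩
  obtain ⟨g1, g2, g3, g4⟩ := h R (le_trans (le_max_left _ _) hR)
  have hR1 : 1 ≤ R := le_trans (le_max_right _ _) hR
  have hR0 : 0 < R := by linarith
  refine ⟨g1, g2, fun j hj => ?_, ?_⟩
  · have h5 := Real.log_le_log (by positivity) hj
    rw [Real.log_pow] at h5
    have h6 : 0 < R ^ δ := by positivity
    rw [Real.norm_of_nonneg (Real.log_nonneg hR1), Real.norm_of_nonneg h6.le] at g3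
    have h7 := Real.log_two_gt_d9
    have h8 : (0 : ℝ) ≤ j := Nat.cast_nonneg j
    nlinarith
  · simp only [Function.comp] at g4
    rw [← Real.rpow_mul hR0.le, mul_div_cancel₀ _ hα.ne', le_div_iff₀ (by positivity),
      show (n : ℝ) + 1 = ((n + 1 : ℕ) : ℝ) by push_cast; ring, Real.rpow_natCast] at g4
    refine le_trans (le_of_eq ?_) g4
    rw [sub_eq_add_neg, Real.exp_add, mul_pow, neg_mul, one_mul]; ring

lemma exists_base {r : ℝ} (hr : 1 ≤ r) {M : ℕ} (hM : 1 ≤ M) : ∃ b : ℕ, 1 ≤ b ∧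
    (b : ℝ) ^ (2 * M) ≤ r ^ 2 ∧ r ^ 2 ≤ 4 ^ M * (b : ℝ) ^ (2 * M) := by
  set x := r ^ ((M : ℝ)⁻¹) with hx
  have hx1 : 1 ≤ x := Real.one_le_rpow hr (by positivity)
  have hxM : x ^ M = r := Real.rpow_inv_natCast_pow (by linarith) (by omega)
  have hb1 : 1 ≤ ⌊x⌋₊ := Nat.le_floor (by simpa using hx1)
  have hb2 : (1 : ℝ) ≤ ⌊x⌋₊ := by exact_mod_cast hb1
  refine ⟨⌊x⌋₊, hb1, ?_, ?_⟩
  · rw [← hxM, ← pow_mul, mul_comm M]
    gcongr
    exact Nat.floor_le (by linarith)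
  · have h1 : x ≤ 2 * ⌊x⌋₊ := by linarith [Nat.lt_floor_add_one x]
    rw [← hxM, ← pow_mul, mul_comm M, show (4 : ℝ) = 2 ^ 2 by norm_num, ← pow_mul, ← mul_pow]
    gcongr

lemma sigma_pow {ε x c : ℝ} {n : ℕ} (hε : 0 < ε) (hε3 : ε ^ (((n : ℝ) + 1)⁻¹) ≤ 3) (hc : 0 ≤ c)
    (hx : c * (n + 1) ≤ x) : (ε ^ (((n : ℝ) + 1)⁻¹)) ^ x ≤ 3 ^ x * ε ^ c := by
  set σ := ε ^ (((n : ℝ) + 1)⁻¹) with hσ
  have hσ0 : 0 < σ := by positivity
  have h1 : ε ^ c = σ ^ (c * (n + 1)) := by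
    rw [hσ, ← Real.rpow_mul hε.le]; congr 1; field_simp
  have h2 : 0 ≤ c * (n + 1) := by positivity
  calc σ ^ x = σ ^ (x - c * (n + 1)) * σ ^ (c * (n + 1)) := by
        rw [← Real.rpow_add hσ0]; congr 1; ring
    _ ≤ 3 ^ x * σ ^ (c * (n + 1)) := by
        gcongr
        calc _ ≤ 3 ^ (x - c * (n + 1)) := Real.rpow_le_rpow hσ0.le hε3 (by linarith)
          _ ≤ _ := Real.rpow_le_rpow_of_exponent_le (by norm_num) (by linarith)
    _ = _ := by rw [h1]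

lemma params {R u B L r T : ℝ} {D M : ℕ} (hu : 48 ≤ u) (hM : 4 ^ M ≤ u) (hB : u ^ 10 ≤ B)
    (hT : B ^ 50 ≤ T) (hR : T ^ 2 = R) (hr : r * u = T) (hL : r ^ 2 ≤ 4 ^ M * L)
    (hD : (D : ℝ) ≤ u) : R / B ≤ L ∧ r + R / r + (2 * D + 2) * r ≤ L / B ^ 20 ∧
      B * T + 10 * R * (1 / B ^ 22) ≤ L / B ^ 20 := by
  have hu1 : 1 ≤ u := by linarith
  have hu3 : u ^ 3 ≤ B := (pow_le_pow_right₀ hu1 (by norm_num)).trans hB
  have hu2 : u ^ 2 ≤ B := (pow_le_pow_right₀ hu1 (by norm_num)).trans hB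
  have huB : u ≤ B := (le_self_pow₀ hu1 (by norm_num)).trans hB
  have hB1 : 48 ≤ B := hu.trans huB
  have hB0 : 0 < B := by linarith
  have hT0 : 0 < T := lt_of_lt_of_le (by positivity) hT
  have hr0 : 0 < r := by
    by_contra h
    nlinarith [not_lt.1 h]
  have hL0 : 0 < L := by
    by_contra h
    have : (4 : ℝ) ^ M * L ≤ 0 := mul_nonpos_of_nonneg_of_nonpos (by positivity) (not_lt.1 h)
    nlinarith
  have h1 : R / B ≤ L := by
    rw [div_le_iff₀ hB0, ← hR, ← hr]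
    calc (r * u) ^ 2 = r ^ 2 * u ^ 2 := by ring
      _ ≤ (4 ^ M * L) * u ^ 2 := by gcongr
      _ ≤ (u * L) * u ^ 2 := by gcongr
      _ = L * u ^ 3 := by ring
      _ ≤ _ := by gcongr
  have h2 : B * T + 10 * R * (1 / B ^ 22) ≤ L / B ^ 20 := by
    have h3 : 2 * B ^ 22 ≤ T := by
      refine le_trans ?_ hT
      calc 2 * B ^ 22 ≤ B * B ^ 22 := by gcongr; linarith
        _ = B ^ 23 := by ring
        _ ≤ _ := pow_le_pow_right₀ (by linarith) (by norm_num)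
    have h4 : B * T ≤ R / B / B ^ 20 / 2 := by
      rw [div_div, div_div, le_div_iff₀ (by positivity), ← hR]
      calc _ = T * (2 * B ^ 22) := by ring
        _ ≤ T * T := by gcongr
        _ = _ := by ring
    have h5 : 10 * R * (1 / B ^ 22) ≤ R / B / B ^ 20 / 2 := by
      have hR0 : 0 < R := by rw [← hR]; positivity
      rw [mul_one_div, div_div, div_div, div_le_div_iff₀ (by positivity) (by positivity)]
      calc _ = R * (20 * B ^ 21) := by ring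
        _ ≤ R * (B * B ^ 21) := by gcongr; linarith
        _ = _ := by ring
    have h6 : R / B / B ^ 20 ≤ L / B ^ 20 := by gcongr
    linarith
  refine ⟨h1, le_trans ?_ (le_trans (le_add_of_nonneg_right (by rw [← hR]; positivity)) h2), h2⟩
  have h7 : R / r = u * T := by rw [← hR, ← hr]; field_simp
  have h8 : r ≤ T := by nlinarith
  have h9 : (2 * D + 2) * r ≤ 4 * T := by nlinarith
  have h10 : 6 * u ≤ B := by nlinarith
  rw [h7]
  nlinarith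

set_option maxHeartbeats 1000000 in
theorem tii_of (d : ℕ) (hd : 1 ≤ d) (hTI : TI1 (d + 1)) (hLP : LP d) : TII d := by
  classical
  obtain ⟨a₀, ha₀, c, hc, hLP⟩ := hLP
  obtain ⟨a, ha, haa, ha1⟩ : ∃ a : ℝ, 0 < a ∧ a ≤ a₀ ∧ a ≤ 1 / 100 :=
    ⟨min a₀ (1 / 100), lt_min ha₀ (by norm_num), min_le_left _ _, min_le_right _ _⟩
  obtain ⟨M, hM, Cp, R₀, hCp, -, hLP⟩ := hLP a ha
  obtain ⟨δ, Ct, hδ, hCt, hTI⟩ := hTI (a / 2) (by positivity)
  obtain ⟨Cm, hCm, hmain⟩ := main_est d hd hc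
  refine ⟨min δ (a / 10), lt_min hδ (by positivity), fun α hα hα0 => ?_⟩
  have hαδ : α ≤ δ := hα0.trans (min_le_left _ _)
  have hαa : α ≤ a / 10 := hα0.trans (min_le_right _ _)
  obtain ⟨R₁, hR₁, hev⟩ := exists_R (d + 1) hα (half_pos hδ)
    (48 + 4 ^ M + 180 * 144 ^ (d + 2)) R₀
  have hd1 : (1 : ℝ) ≤ d := by exact_mod_cast hd
  obtain ⟨cf, hcf, hcf1, hcf2, hcf3, hcf4⟩ : ∃ cf : ℝ, 0 < cf ∧ cf * (d + 1) ≤ c / 2 ∧
      cf * (d + 1) ≤ 1 / (2 * ((d : ℝ) + 2)) ∧ cf ≤ α ∧ cf ≤ δ / 2 := by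
    refine ⟨min (min (c / 2 / (d + 1)) (1 / (2 * ((d : ℝ) + 2)) / (d + 1))) (min α (δ / 2)),
      by positivity, ?_, ?_, ?_, ?_⟩
    · rw [← le_div_iff₀ (by positivity)]; exact (min_le_left _ _).trans (min_le_left _ _)
    · rw [← le_div_iff₀ (by positivity)]; exact (min_le_left _ _).trans (min_le_right _ _)
    · exact (min_le_right _ _).trans (min_le_left _ _)
    · exact (min_le_right _ _).trans (min_le_right _ _)
  obtain ⟨K, hK⟩ : ∃ K : ℝ, K = 3 ^ (c / 2) + 3 ^ (1 / (2 * ((d : ℝ) + 2))) := ⟨_, rfl⟩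
  have hK0 : 0 ≤ K := by rw [hK]; positivity
  refine ⟨cf, Cm * (Cp * (K + 2) + 1) + 4 * Ct + (3 * R₁) ^ (d + 1), hcf, by positivity, ?_⟩
  intro R hR X hX c₀ Y hY hXY H hH1 hH2
  have hR0 : 0 < R := by linarith
  obtain ⟨e, he⟩ : ∃ e : ℝ, e = ((d : ℝ) + 1) / (d + 2) := ⟨_, rfl⟩
  have he1 : 1 / 2 ≤ e := by rw [he, le_div_iff₀ (by positivity)]; linarith
  rw [← he] at hmain ⊢
  have hone : 1 ≤ R ^ e * R ^ (-cf) := by
    rw [← Real.rpow_add hR0]; exact Real.one_le_rpow hR (by linarith)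
  obtain ⟨ε, hε⟩ : ∃ ε : ℝ, ε = (X.card : ℝ) / R ^ (d + 1) := ⟨_, rfl⟩
  have hε0 : 0 ≤ ε := by rw [hε]; positivity
  rw [← hε]
  have hcard := card_graph_le hX hR
  have hP : 0 ≤ R ^ e * ε ^ cf := by positivity
  have hQ : 0 ≤ R ^ e * R ^ (-cf) := by positivity
  have hH0 : 0 ≤ ‖H‖ ^ 2 := by positivity
  have hC1 : 0 ≤ Cm * (Cp * (K + 2) + 1) + 4 * Ct := by positivity
  have hC2 : 0 ≤ (3 * R₁) ^ (d + 1) := by positivity
  rcases lt_or_ge R R₁ with hRR | hRR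
  · refine (en_le_card (fun _ _ => le_rfl) H).trans (mul_le_mul_of_nonneg_right ?_ hH0)
    have : (3 * R) ^ (d + 1) ≤ (3 * R₁) ^ (d + 1) := by gcongr
    rw [mul_assoc, mul_add]
    nlinarith only [this, hcard, hP, hone, hC1, hC2]
  rcases X.eq_empty_or_nonempty with hXe | hXe
  · rw [hXe]; simp only [En, Finset.sum_empty]; positivity
  obtain ⟨hR₀, hu, hJ, hexp⟩ := hev R hRR
  have hT2 : √R ^ 2 = R := Real.sq_sqrt hR0.le
  have hT0 : 0 < √R := Real.sqrt_pos.2 hR0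
  have hpw : ∀ x : ℝ, ∀ n : ℕ, (R ^ x) ^ n = R ^ (x * n) := fun x n => by
    rw [Real.rpow_mul hR0.le, Real.rpow_natCast]
  have hle : ∀ {x y : ℝ}, x ≤ y → R ^ x ≤ R ^ y := fun h => Real.rpow_le_rpow_of_exponent_le hR h
  have hB10 : (R ^ α) ^ 10 ≤ R ^ a := by rw [hpw]; exact hle (by push_cast; linarith)
  have hB50 : (R ^ a) ^ 50 ≤ √R := by
    rw [hpw, Real.sqrt_eq_rpow]; exact hle (by push_cast; linarith)
  have hG5 : (R ^ α) ^ 5 ≤ R ^ (a / 2) := by rw [hpw]; exact hle (by push_cast; linarith)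
  have hGG : R ^ (a / 2) * R ^ (a / 2) = R ^ a := by rw [← Real.rpow_add hR0, add_halves]
  have hSu : Ssc (d + 1) R * R ^ α ≤ √R := by
    rw [Ssc, ← Real.rpow_add hR0, Real.sqrt_eq_rpow]
    refine hle ?_
    have : 1 / (2 * (((d + 1 : ℕ) : ℝ) + 1)) ≤ 1 / 6 := by
      push_cast; gcongr; linarith
    linarith
  have hS1 : 1 ≤ Ssc (d + 1) R := Real.one_le_rpow hR (by positivity)
  have hS2 : R / Ssc (d + 1) R ^ 2 = R ^ e := by
    rw [Ssc, hpw, div_eq_iff (by positivity), ← Real.rpow_add hR0, he]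
    conv_lhs => rw [← Real.rpow_one R]
    congr 1; push_cast; field_simp; ring
  have huinv : (R ^ α)⁻¹ ≤ R ^ (-cf) := by rw [← Real.rpow_neg hR0.le]; exact hle (by linarith)
  have hTI' := fun E (hE : E ⊆ X) => hTI R hR E ⟨fun z hz => hX.1 z (hE hz),
    fun z hz z' hz' => hX.2 z (hE hz) z' (hE hz')⟩ H hH1 (EuclideanSpace.single 0 1) c₀ (by simp)
    (by
      filter_upwards [hH2] with ξ h h'
      refine h (lt_of_le_of_lt (div_le_div_of_nonneg_right (hle hαδ) hT0.le) ?_)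
      simpa [EuclideanSpace.inner_single_left] using h')
  have hx1 : R ^ (((d + 1 : ℕ) : ℝ) - a / 2) = R ^ (d + 1) / R ^ (a / 2) := by
    rw [Real.rpow_sub hR0, Real.rpow_natCast]
  have hx2 : R ^ (((d + 1 : ℕ) : ℝ) / (((d + 1 : ℕ) : ℝ) + 1) - δ) = R ^ e * R ^ (-δ) := by
    rw [← Real.rpow_add hR0, he]; congr 1; push_cast; ring
  rw [hx1, hx2] at hTI'
  have hJ2 : (⌈R ^ (δ / 2)⌉₊ : ℝ) * R ^ (-δ) ≤ 2 * R ^ (-cf) := by
    have h1 : 1 ≤ R ^ (δ / 2) := Real.one_le_rpow hR (by positivity)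
    have h2 := Nat.ceil_lt_add_one (by positivity : 0 ≤ R ^ (δ / 2))
    calc _ ≤ 2 * R ^ (δ / 2) * R ^ (-δ) := by gcongr; linarith
      _ = 2 * R ^ (δ / 2 + -δ) := by rw [Real.rpow_add hR0]; ring
      _ ≤ _ := by gcongr; linarith
  have hLP' := hLP R hR₀ (R ^ a) le_rfl (hle haa)
  have hG0 : 0 < R ^ (a / 2) := by positivity
  generalize R ^ α = u at *
  generalize R ^ a = B at *
  generalize R ^ (a / 2) = G at *
  have p1 : (0 : ℝ) ≤ 4 ^ M := by positivity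
  have p2 : (0 : ℝ) ≤ 180 * 144 ^ (d + 2) := by positivity
  have hu48 : 48 ≤ u := by linarith only [hu, p1, p2]
  have hu1 : 1 ≤ u := by linarith only [hu48]
  have hu0 : 0 < u := by linarith only [hu48]
  have huB : u ≤ B := (le_self_pow₀ hu1 (by norm_num)).trans hB10
  have hB1 : 1 ≤ B := hu1.trans huB
  have hB0 : 0 < B := by linarith only [hB1]
  have hBT : B ≤ √R := (le_self_pow₀ hB1 (by norm_num)).trans hB50
  obtain ⟨r, hr⟩ : ∃ r, r * u = √R := ⟨√R / u, by field_simp⟩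
  have hSr : Ssc (d + 1) R ≤ r := le_of_mul_le_mul_right (hr ▸ hSu) hu0
  have hr1 : 1 ≤ r := hS1.trans hSr
  have hr0 : 0 < r := by linarith only [hr1]
  have hur : u / √R = 1 / r := by rw [← hr]; field_simp
  rw [hur] at hH2
  by_cases hc₀ : 2 < |c₀|
  · have : H = 0 := by
      refine Lp.eq_zero_iff_ae_eq_zero.2 ?_
      filter_upwards [hH1, hH2] with ξ h1 h2
      by_cases h : 1 < ‖ξ‖
      · exact h1 h
      · refine h2 ?_
        have h3 : |ξ 0| ≤ ‖ξ‖ := PiLp.norm_apply_le ξ 0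
        have h4 := abs_sub_abs_le_abs_sub c₀ (ξ 0)
        have h5 : 1 / r ≤ 1 := by rw [div_le_one hr0]; exact hr1
        rw [abs_sub_comm] at h4
        linarith only [h3, h4, h5, hc₀, not_lt.1 h]
    simp [this, En]
  rw [not_lt] at hc₀
  obtain ⟨b, hb, hbL, hbL'⟩ := exists_base hr1 hM
  have hD : (⌊u⌋₊ : ℝ) ≤ u := Nat.floor_le hu0.le
  obtain ⟨q1, q2, q3⟩ := params hu48 (by linarith only [hu, p2]) hB10 hB50 hT2 hr hbL' hD
  have hrR : r ^ 2 ≤ R := by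
    rw [← hT2, ← hr]; gcongr; exact le_mul_of_one_le_right hr0.le hu1
  have hLR := hbL.trans hrR
  obtain ⟨Xs, Z, s1, s2, s3, s4, s5⟩ := exists_regular (c := c) (Cp := Cp) (M := M)
    (J := ⌈R ^ (δ / 2)⌉₊) hX hc₀ hR hb hLR hu48 hr hSr hD huB hG0
    (by
      calc 180 * 144 ^ (d + 2) * u ^ 3 * G ≤ u * u ^ 3 * G := by
            gcongr; linarith only [hu, p1]
        _ = u ^ 4 * G := by ring
        _ ≤ G * G := by gcongr; exact (pow_le_pow_right₀ hu1 (by norm_num)).trans hG5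
        _ = B := hGG)
    (fun j hj => Nat.lt_ceil.2 (hJ j hj)) hY hXY hTI' (hLP' b q1 hLR _ · pr)
  have hL0 : (0 : ℝ) < (b : ℝ) ^ (2 * M) := by positivity
  have hw := win_bounds hb M
  generalize (b : ℝ) ^ (2 * M) = L at *
  have hε1 : 0 < ε := by
    have : (0 : ℝ) < X.card := by exact_mod_cast hXe.card_pos
    rw [hε]; positivity
  have hσp : (ε ^ (((d : ℝ) + 1)⁻¹)) ^ (d + 1) = ε := by
    have := Real.rpow_inv_natCast_pow hε0 (n := d + 1) (by omega)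
    push_cast at this; exact this
  have hσ3 : ε ^ (((d : ℝ) + 1)⁻¹) ≤ 3 := by
    refine le_of_pow_le_pow_left₀ (n := d + 1) (by omega) (by norm_num) ?_
    rw [hσp, hε, div_le_iff₀ (by positivity), ← mul_pow]; exact hcard
  have hm := hmain R r L (√R) _ B c₀ (ε ^ (((d : ℝ) + 1)⁻¹)) Cp _ ⌊u⌋₊ X Xs (fun z => win b M z.2)
    Z H hX s1 hc₀ hr1 hL0 hbL hLR (hB1.trans hBT) hB1 q2 q3 (by positivity) hσ3
    (by rw [hσp, hε]; field_simp) hCp (by positivity) (fun z _ => hw z.2) s2 s3 s4 hH1 hH2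
  have t1 : (ε ^ (((d : ℝ) + 1)⁻¹)) ^ (c / 2) + (ε ^ (((d : ℝ) + 1)⁻¹)) ^ (1 / (2 * ((d : ℝ) + 2)))
      ≤ K * ε ^ cf := by
    rw [hK, add_mul]
    exact add_le_add (sigma_pow hε1 hσ3 hcf.le hcf1) (sigma_pow hε1 hσ3 hcf.le hcf2)
  have t2 : L * (1 / r) ^ (2 / ((d : ℝ) + 2)) ≤ R ^ e * R ^ (-cf) := by
    have h1 : r ^ 2 * (1 / r) ^ (2 / ((d : ℝ) + 2)) = (r ^ 2) ^ e := by
      rw [one_div, Real.inv_rpow hr0.le, ← Real.rpow_neg hr0.le, ← Real.rpow_two,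
        ← Real.rpow_add hr0, ← Real.rpow_mul hr0.le, he]
      congr 1; field_simp; ring
    have h2 : R ^ e = (r ^ 2) ^ e * (u ^ 2) ^ e := by
      rw [← Real.mul_rpow (by positivity) (by positivity), ← mul_pow, hr, hT2]
    have h3 : u ≤ (u ^ 2) ^ e := by
      rw [← Real.rpow_two, ← Real.rpow_mul hu0.le]
      conv_lhs => rw [← Real.rpow_one u]
      exact Real.rpow_le_rpow_of_exponent_le hu1 (by linarith only [he1])
    calc _ ≤ r ^ 2 * (1 / r) ^ (2 / ((d : ℝ) + 2)) := by gcongr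
      _ = (r ^ 2) ^ e * u * u⁻¹ := by rw [h1]; field_simp
      _ ≤ (r ^ 2) ^ e * (u ^ 2) ^ e * R ^ (-cf) := by gcongr
      _ = _ := by rw [h2]
  have t3 : R / L * (Cp * (L / (B * Ssc (d + 1) R ^ 2)) +
      X.card * (Real.exp (-√R) + Real.exp (-(⌊u⌋₊ : ℝ)))) ≤ (Cp + 1) * (R ^ e * R ^ (-cf)) := by
    have h1 : R / L * (Cp * (L / (B * Ssc (d + 1) R ^ 2))) = Cp * (R ^ e * B⁻¹) := by
      rw [← hS2]; field_simp
    have h2 : B⁻¹ ≤ R ^ (-cf) := (inv_anti₀ hu0 huB).trans huinv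
    have h3 : R / L ≤ R := by
      rw [div_le_iff₀ hB0] at q1
      rw [div_le_iff₀ hL0]
      have : B ≤ R := hBT.trans (Real.sqrt_le_self_iff.2 (Or.inr hR))
      nlinarith only [q1, this, hL0]
    have h4 : Real.exp (-√R) + Real.exp (-(⌊u⌋₊ : ℝ)) ≤ 2 * Real.exp (1 - u) := by
      have a1 : Real.exp (-√R) ≤ Real.exp (1 - u) :=
        Real.exp_le_exp.2 (by linarith only [huB, hBT])
      have a2 : Real.exp (-(⌊u⌋₊ : ℝ)) ≤ Real.exp (1 - u) :=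
        Real.exp_le_exp.2 (by linarith only [Nat.lt_floor_add_one u])
      linarith only [a1, a2]
    have h5 : R / L * (X.card * (Real.exp (-√R) + Real.exp (-(⌊u⌋₊ : ℝ)))) ≤ 1 := by
      refine le_trans ?_ hexp
      rw [mul_assoc]; gcongr
    have h6 : Cp * (R ^ e * B⁻¹) ≤ Cp * (R ^ e * R ^ (-cf)) := by gcongr
    rw [mul_add, h1]
    linarith only [h5, h6, hone]
  refine s5.trans ((add_le_add hm le_rfl).trans ?_)
  have t4 : 2 * (⌈R ^ (δ / 2)⌉₊ : ℝ) * (Ct * (R ^ e * R ^ (-δ)) * ‖H‖ ^ 2) ≤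
      4 * Ct * (R ^ e * R ^ (-cf)) * ‖H‖ ^ 2 := by
    calc _ = 2 * Ct * R ^ e * ((⌈R ^ (δ / 2)⌉₊ : ℝ) * R ^ (-δ)) * ‖H‖ ^ 2 := by ring
      _ ≤ 2 * Ct * R ^ e * (2 * R ^ (-cf)) * ‖H‖ ^ 2 := by gcongr
      _ = _ := by ring
  refine (add_le_add (mul_le_mul_of_nonneg_right (mul_le_mul_of_nonneg_left (add_le_add
    (mul_le_mul_of_nonneg_left (add_le_add (mul_le_mul_of_nonneg_right t1 (by positivity)) t2) hCp)
    t3) hCm) hH0) t4).trans ?_
  rw [← add_mul]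
  refine mul_le_mul_of_nonneg_right ?_ hH0
  rw [mul_assoc _ (R ^ e), mul_add (R ^ e), mul_assoc K, mul_comm (ε ^ cf)]
  generalize R ^ e * ε ^ cf = P at *
  generalize R ^ e * R ^ (-cf) = Q at *
  have w1 : 0 ≤ Cm * Cp * K * Q := by positivity
  have w2 : 0 ≤ Cm * Cp * P := by positivity
  have w3 : 0 ≤ Cm * P := by positivity
  have w4 : 0 ≤ Ct * P := by positivity
  have w5 : 0 ≤ (3 * R₁) ^ (d + 1) * (P + Q) := by positivity
  nlinarith only [w1, w2, w3, w4, w5]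

end Crest.Agent.N76.II.B
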