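import Crest.Agent.N76.II.B.Defs
import Crest.Agent.N76.G.Gam
import Crest.Agent.N76.G.Iso
import Crest.Agent.N76.St.Abs
import Crest.Agent.N76.Red.Basic

/-! # Row 76, part II B1: slicing in the direction `e₀` -/

set_option autoImplicit false

open MeasureTheory Set Metric
open scoped ENNReal RealInnerProductSpace ComplexConjugate FourierTransform

namespace Crest.Agent.N76.II.B

open Crest.Agent.N76.Red (V ph)
open Crest.Agent.N76.G

variable {d : ℕ}

lemma measurable_of_edist {α E : Type*} [MeasurableSpace α] [PseudoEMetricSpace E]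
    [SecondCountableTopology E] [MeasurableSpace E] [BorelSpace E] {F : α → E}
    (h : ∀ φ, Measurable fun a => edist (F a) φ) : Measurable F := by
  refine measurable_of_isOpen fun U hU => ?_
  obtain ⟨T, hT, hTS, hU'⟩ := TopologicalSpace.isOpen_sUnion_countable
    {s | s ⊆ U ∧ ∃ φ r, s = eball φ r} (by rintro s ⟨-, φ, r, rfl⟩; exact isOpen_eball)
  have : U = ⋃₀ T := by
    rw [hU']
    refine Subset.antisymm (fun x hx => ?_) (sUnion_subset fun s hs => hs.1)
    obtain ⟨ε, hε, hb⟩ := EMetric.isOpen_iff.1 hU x hx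
    exact ⟨_, ⟨hb, x, ε, rfl⟩, mem_eball_self hε⟩
  rw [this, preimage_sUnion]
  refine MeasurableSet.biUnion hT fun s hs => ?_
  obtain ⟨-, φ, r, rfl⟩ := hTS hs
  exact measurableSet_lt (h φ) measurable_const

lemma enorm_sq_L2 {α : Type*} [MeasurableSpace α] {μ : Measure α} (h : Lp ℂ 2 μ) :
    ‖h‖ₑ ^ 2 = ∫⁻ x, ‖h x‖ₑ ^ 2 ∂μ := by
  rw [← ofReal_norm, ← ENNReal.ofReal_pow (norm_nonneg _), ← Iso.integral_norm_sq_L2,
    ofReal_integral_eq_lintegral_ofReal (Iso.integrable_norm_sq_L2 h)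
      (.of_forall fun _ => by positivity)]
  simp only [← ofReal_norm, ENNReal.ofReal_pow (norm_nonneg _)]

lemma memLp_two_of_lintegral {α E : Type*} [MeasurableSpace α] {μ : Measure α}
    [NormedAddCommGroup E] {f : α → E} (hf : AEStronglyMeasurable f μ)
    (h : ∫⁻ x, ‖f x‖ₑ ^ 2 ∂μ ≠ ∞) : MemLp f 2 μ := by
  refine ⟨hf, (eLpNorm_lt_top_iff_lintegral_rpow_enorm_lt_top two_ne_zero (by simp)).2 ?_⟩
  simpa using h.lt_top

/-- a square integrable function of two variables as a Hilbert valued function -/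
lemma exists_curry {f : ℝ × V d → ℂ} (hf : Measurable f) (h2 : ∫⁻ p, ‖f p‖ₑ ^ 2 ≠ ∞) :
    ∃ F : ℝ → L2 d, StronglyMeasurable F ∧ (∀ η, F η =ᵐ[volume] (fun ξ => f (η, ξ)) ∨ F η = 0) ∧
      (∀ᵐ η, F η =ᵐ[volume] fun ξ => f (η, ξ)) ∧ ∫⁻ η, ‖F η‖ₑ ^ 2 = ∫⁻ p, ‖f p‖ₑ ^ 2 := by
  classical
  have hm : Measurable fun η => ∫⁻ ξ, ‖f (η, ξ)‖ₑ ^ 2 := (hf.enorm.pow_const 2).lintegral_prod_right'
  set S : Set ℝ := {η | ∫⁻ ξ, ‖f (η, ξ)‖ₑ ^ 2 < ∞} with hS
  have hSm : MeasurableSet S := measurableSet_lt hm measurable_const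
  set f' : ℝ × V d → ℂ := (Prod.fst ⁻¹' S).indicator f with hf'
  have hf'm : Measurable f' := hf.indicator (measurable_fst hSm)
  have e1 : ∀ η ∈ S, (fun ξ => f' (η, ξ)) = fun ξ => f (η, ξ) := fun η hη =>
    funext fun ξ => indicator_of_mem (show (η, ξ) ∈ Prod.fst ⁻¹' S from hη) _
  have e2 : ∀ η ∉ S, (fun ξ => f' (η, ξ)) = 0 := fun η hη =>
    funext fun ξ => indicator_of_notMem (show (η, ξ) ∉ Prod.fst ⁻¹' S from hη) _
  have hL : ∀ η, MemLp (fun ξ => f' (η, ξ)) 2 volume := fun η => by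
    by_cases hη : η ∈ S
    · rw [e1 η hη]
      exact memLp_two_of_lintegral (hf.comp measurable_prodMk_left).aestronglyMeasurable
        (ne_of_lt hη)
    · rw [e2 η hη]; exact MemLp.zero
  have hae : ∀ᵐ η, η ∈ S := ae_lt_top hm (by
    rwa [Measure.volume_eq_prod, lintegral_prod _ (hf.enorm.pow_const 2).aemeasurable] at h2)
  have h3 : ∀ᵐ η, (hL η).toLp _ =ᵐ[volume] fun ξ => f (η, ξ) :=
    hae.mono fun η hη => by rw [← e1 η hη]; exact MemLp.coeFn_toLp _
  refine ⟨fun η => (hL η).toLp _, ?_, fun η => ?_, h3, ?_⟩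
  · borelize ↥(L2 d)
    have : Fact ((2 : ℝ≥0∞) ≠ ∞) := ⟨by simp⟩
    refine Measurable.stronglyMeasurable (measurable_of_edist fun φ => ?_)
    have e3 : ∀ η, edist ((hL η).toLp _) φ = (∫⁻ ξ, ‖f' (η, ξ) - φ ξ‖ₑ ^ 2) ^ (1 / 2 : ℝ) := by
      intro η
      rw [edist_eq_enorm_sub, ← lintegral_congr_ae (f := fun ξ => ‖((hL η).toLp _ - φ) ξ‖ₑ ^ 2),
        ← enorm_sq_L2, ← ENNReal.rpow_natCast, ← ENNReal.rpow_mul]
      · norm_num
      · filter_upwards [Lp.coeFn_sub ((hL η).toLp _) φ, (hL η).coeFn_toLp] with ξ h1 h2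
        rw [h1, Pi.sub_apply, h2]
    simp only [e3]
    exact ((hf'm.sub ((Lp.stronglyMeasurable φ).measurable.comp measurable_snd)).enorm.pow_const
      2).lintegral_prod_right'.pow_const _
  · by_cases hη : η ∈ S
    · left; rw [← e1 η hη]; exact MemLp.coeFn_toLp _
    · right
      refine Lp.ext ((hL η).coeFn_toLp.trans ?_)
      rw [e2 η hη]; exact (Lp.coeFn_zero _ _ _).symm
  · rw [Measure.volume_eq_prod, lintegral_prod _ (hf.enorm.pow_const 2).aemeasurable]
    refine lintegral_congr_ae (h3.mono fun η hη => ?_)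
    simp only
    rw [enorm_sq_L2]
    exact lintegral_congr_ae (hη.mono fun ξ hξ => by simp only [hξ])

lemma integrable_mul_ph {c : ℝ → ℂ} (hc : Integrable c) {θ : ℝ → ℝ} (hθ : Continuous θ) :
    Integrable fun η => c η * ph (θ η) :=
  hc.norm.mono' (hc.1.mul (Red.continuous_ph.comp hθ).aestronglyMeasurable)
    (.of_forall fun η => by rw [norm_mul, Red.norm_ph, mul_one])

lemma continuous_U1 {c : ℝ → ℂ} (hc : Integrable c) (t : ℝ) : Continuous (U1 t c) := by
  refine continuous_of_dominated (bound := fun η => ‖c η‖)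
    (fun y => (integrable_mul_ph hc (by fun_prop)).1)
    (fun y => .of_forall fun η => by rw [norm_mul, Red.norm_ph, mul_one]) hc.norm
    (.of_forall fun η => ?_)
  exact continuous_const.mul (Red.continuous_ph.comp (by fun_prop))

lemma norm_U1_le (c : ℝ → ℂ) (t y : ℝ) : ‖U1 t c y‖ ≤ ∫ η, ‖c η‖ := by
  refine (norm_integral_le_integral_norm _).trans (le_of_eq ?_)
  simp only [norm_mul, Red.norm_ph, mul_one]

/-- Plancherel for the one dimensional propagator -/
lemma lintegral_U1 {c : ℝ → ℂ} (h1 : Integrable c) (h2 : MemLp c 2 volume) (t : ℝ) :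
    ∫⁻ y, ‖U1 t c y‖ₑ ^ 2 = ∫⁻ η, ‖c η‖ₑ ^ 2 := by
  set c' : ℝ → ℂ := fun η => c η * ph (t * η ^ 2) with hc'
  have i1 : Integrable c' := integrable_mul_ph h1 (by fun_prop)
  have n1 : ∀ η, ‖c' η‖ = ‖c η‖ := fun η => by rw [hc', norm_mul, Red.norm_ph, mul_one]
  have i2 : MemLp c' 2 volume := h2.of_le i1.1 (.of_forall fun η => (n1 η).le)
  have e : ∀ y, U1 t c y = 𝓕 c' (-y) := fun y => by
    rw [Real.fourier_real_eq_integral_exp_smul, U1]
    refine integral_congr_ae (.of_forall fun η => ?_)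
    simp only [hc', smul_eq_mul, Red.ph_add]
    rw [mul_left_comm]
    congr 2
    unfold ph; congr 1; push_cast; ring
  have key : ∀ {u : ℝ → ℂ}, MemLp u 2 volume →
      ∫⁻ y, ‖u y‖ₑ ^ 2 = ENNReal.ofReal (∫ y, ‖u y‖ ^ 2) := fun hu => by
    rw [ofReal_integral_eq_lintegral_ofReal ((memLp_two_iff_integrable_sq_norm hu.1).1 hu)
      (.of_forall fun _ => by positivity)]
    simp only [← ofReal_norm, ENNReal.ofReal_pow (norm_nonneg _)]
  simp only [e]
  rw [lintegral_neg_eq_self fun y => ‖𝓕 c' y‖ₑ ^ 2, key (R070.Cs145.memLp_fourier i1 i2),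
    R070.Cs145.integral_norm_sq_fourier i1 i2, key h2]
  simp only [n1]

/-- a Gaussian cut-off in frequency makes the propagator locally constant -/
lemma one_dim {r t t₀ : ℝ} (hr : 0 < r) (ht : |t - t₀| ≤ r ^ 2) {c : ℝ → ℂ} (hc : Integrable c)
    (y₀ : ℝ) :
    ENNReal.ofReal (‖∫ η, c η * (Real.exp (-(Real.pi * r ^ 2 * η ^ 2)) *
        ph (y₀ * η + t * η ^ 2))‖ ^ 2) ≤
      ∫⁻ y, ENNReal.ofReal (9 / r * Real.exp (-(|y₀ - y| / r)) * ‖U1 t₀ c y‖ ^ 2) := by
  have hπ := Real.pi_gt_three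
  set B : ℂ := (r : ℂ) ^ 2 - 2 * (t - t₀ : ℝ) * Complex.I with hB
  have hBre : B.re = r ^ 2 := by simp [hB, ← Complex.ofReal_pow]
  have hBn : Complex.normSq B = r ^ 4 + 4 * (t - t₀) ^ 2 := by
    rw [Complex.normSq_apply, hBre]; simp [hB, ← Complex.ofReal_pow]; ring
  have hB0 : B ≠ 0 := fun h => by rw [h] at hBre; simp at hBre; nlinarith
  have hbre : ((Real.pi : ℂ) / B).re = Real.pi * r ^ 2 / (r ^ 4 + 4 * (t - t₀) ^ 2) := by
    rw [div_eq_mul_inv, Complex.re_ofReal_mul, Complex.inv_re, hBre, hBn, mul_div_assoc]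
  have hb : 0 < ((Real.pi : ℂ) / B).re := by rw [hbre]; positivity
  have hπ0 : (Real.pi : ℂ) ≠ 0 := Complex.ofReal_ne_zero.2 Real.pi_ne_zero
  set k : ℝ → ℂ := fun u => (B ^ (1 / 2 : ℂ))⁻¹ * Complex.exp (-(Real.pi / B) * u ^ 2) with hk
  set a : ℝ := Real.pi / (5 * r ^ 2) with ha
  have ha0 : 0 < a := by positivity
  have hkc : Continuous k := by rw [hk]; fun_prop
  have hkb : ∀ u, ‖k u‖ ≤ r⁻¹ * Real.exp (-a * u ^ 2) := fun u => by
    rw [hk]
    simp only
    rw [norm_mul, norm_inv, show (1 / 2 : ℂ) = ((1 / 2 : ℝ) : ℂ) by push_cast; rfl,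
      Complex.norm_cpow_real, Complex.norm_exp, ← Real.sqrt_eq_rpow]
    refine mul_le_mul (inv_anti₀ hr (Real.le_sqrt_of_sq_le ?_)) (Real.exp_le_exp.2 ?_)
      (by positivity) (by positivity)
    · rw [← hBre]; exact Complex.re_le_norm B
    · rw [← Complex.ofReal_pow, Complex.mul_re, Complex.ofReal_im, mul_zero, sub_zero,
        Complex.ofReal_re, Complex.neg_re, hbre]
      refine mul_le_mul_of_nonneg_right (neg_le_neg ?_) (sq_nonneg u)
      have h1 : (t - t₀) ^ 2 ≤ (r ^ 2) ^ 2 := by rw [← sq_abs]; gcongr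
      rw [ha, div_le_div_iff₀ (by positivity) (by positivity)]
      nlinarith [mul_le_mul_of_nonneg_left h1 Real.pi_pos.le]
  have hg : Integrable fun y : ℝ => r⁻¹ * Real.exp (-a * (y₀ - y) ^ 2) :=
    ((integrable_exp_neg_mul_sq ha0).comp_sub_left y₀).const_mul _
  have hki : Integrable fun y => k (y₀ - y) :=
    hg.mono' (by fun_prop : Continuous fun y => k (y₀ - y)).aestronglyMeasurable
      (.of_forall fun y => hkb _)
  have e1 : ∀ η : ℝ, (Real.exp (-(Real.pi * r ^ 2 * η ^ 2)) : ℂ) * ph (y₀ * η + t * η ^ 2) =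
      ∫ y, k (y₀ - y) * ph (y * η + t₀ * η ^ 2) := fun η => by
    have h1 := fourierIntegral_gaussian hb (-(2 * Real.pi * η))
    rw [div_div_cancel₀ hπ0] at h1
    rw [← integral_sub_left_eq_self _ volume y₀]
    have h2 : ∀ x : ℝ, k (y₀ - (y₀ - x)) * ph ((y₀ - x) * η + t₀ * η ^ 2) =
        (B ^ (1 / 2 : ℂ))⁻¹ * ph (y₀ * η + t₀ * η ^ 2) *
          (Complex.exp (Complex.I * -(2 * Real.pi * η) * x) *
            Complex.exp (-(Real.pi / B) * x ^ 2)) := fun x => by
      rw [sub_sub_cancel, hk, show (y₀ - x) * η + t₀ * η ^ 2 = (y₀ * η + t₀ * η ^ 2) + -(x * η) by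
        ring, Red.ph_add]
      have : ph (-(x * η)) = Complex.exp (Complex.I * -(2 * Real.pi * η) * x) := by
        unfold ph; congr 1; push_cast; ring
      rw [this]; ring
    simp only [h2]
    rw [integral_const_mul, h1, mul_mul_mul_comm, inv_mul_cancel₀ (by simp [hB0]), one_mul,
      Complex.ofReal_exp, ph, ph, ← Complex.exp_add, ← Complex.exp_add]
    congr 1
    field_simp
    rw [hB]
    push_cast; ring
  have e2 : ∫ η, c η * (Real.exp (-(Real.pi * r ^ 2 * η ^ 2)) * ph (y₀ * η + t * η ^ 2)) =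
      ∫ y, k (y₀ - y) * U1 t₀ c y := by
    simp only [e1, U1, ← integral_const_mul]
    rw [integral_integral_swap]
    · exact integral_congr_ae (.of_forall fun y => integral_congr_ae (.of_forall fun η => by
        simp only; ring))
    · refine (hc.norm.mul_prod hki.norm).mono' ?_ (.of_forall fun p => ?_)
      · exact hc.1.comp_fst.mul (Continuous.aestronglyMeasurable
          ((hkc.comp (by fun_prop)).mul (Red.continuous_ph.comp (by fun_prop))))
      · simp only [Function.uncurry, norm_mul, Red.norm_ph, mul_one, le_refl]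
  set ω : ℝ → ℝ := fun y => r⁻¹ * Real.exp (-a * (y₀ - y) ^ 2) with hω
  have hω0 : ∀ y, 0 ≤ ω y := fun y => by positivity
  have hωc : Continuous ω := by rw [hω]; fun_prop
  have hU := continuous_U1 hc t₀
  have hi : ∀ n : ℕ, Integrable fun y => ω y * ‖U1 t₀ c y‖ ^ n := fun n =>
    hg.mul_bdd (c := (∫ η, ‖c η‖) ^ n) (hU.norm.pow n).aestronglyMeasurable (.of_forall fun y => by
      rw [norm_pow, norm_norm]; exact pow_le_pow_left₀ (norm_nonneg _) (norm_U1_le _ _ _) n)
  have s1 : ∀ y, √(ω y) ^ 2 = ω y := fun y => Real.sq_sqrt (hω0 y)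
  have s2 : ∀ y, (√(ω y) * ‖U1 t₀ c y‖) ^ 2 = ω y * ‖U1 t₀ c y‖ ^ 2 := fun y => by rw [mul_pow, s1]
  have s3 : ∀ y, √(ω y) * (√(ω y) * ‖U1 t₀ c y‖) = ω y * ‖U1 t₀ c y‖ ^ 1 := fun y => by
    rw [← mul_assoc, ← sq, s1, pow_one]
  have cs := St.integral_mul_le (μ := volume) (E := univ) (u := fun y => √(ω y))
    (v := fun y => √(ω y) * ‖U1 t₀ c y‖) (by simp only [s1]; exact hg.integrableOn)
    (by simp only [s2]; exact (hi 2).integrableOn) (by simp only [s3]; exact (hi 1).integrableOn)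
  simp only [s1, s2, s3, Measure.restrict_univ] at cs
  have hω1 : ∫ y, ω y ≤ 3 := by
    rw [hω, integral_const_mul,
      integral_sub_left_eq_self (fun x : ℝ => Real.exp (-a * x ^ 2)) volume y₀, integral_gaussian,
      ha, div_div_cancel₀ Real.pi_pos.ne', inv_mul_le_iff₀ hr]
    exact Real.sqrt_le_iff.2 ⟨by positivity, by nlinarith⟩
  have hI : 0 ≤ ∫ y, ω y * ‖U1 t₀ c y‖ ^ 2 := integral_nonneg fun y => by have := hω0 y; positivity
  have h3 : ‖∫ y, k (y₀ - y) * U1 t₀ c y‖ ^ 2 ≤ 3 * ∫ y, ω y * ‖U1 t₀ c y‖ ^ 2 := by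
    have h4 := (norm_integral_le_of_norm_le (hi 1) (f := fun y => k (y₀ - y) * U1 t₀ c y)
      (.of_forall fun y => by
        rw [norm_mul, pow_one]; exact mul_le_mul_of_nonneg_right (hkb _) (norm_nonneg _))).trans cs
    refine (pow_le_pow_left₀ (norm_nonneg _) h4 2).trans ?_
    rw [mul_pow, Real.sq_sqrt (integral_nonneg hω0), Real.sq_sqrt hI]
    exact mul_le_mul_of_nonneg_right hω1 hI
  rw [e2]
  refine (ENNReal.ofReal_le_ofReal h3).trans ?_
  rw [← integral_const_mul, ofReal_integral_eq_lintegral_ofReal ((hi 2).const_mul _)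
    (.of_forall fun y => by have := hω0 y; positivity)]
  refine lintegral_mono fun y => ENNReal.ofReal_le_ofReal ?_
  rw [← mul_assoc]
  refine mul_le_mul_of_nonneg_right ?_ (by positivity)
  have h5 : Real.exp (-a * (y₀ - y) ^ 2) ≤ 3 * Real.exp (-(|y₀ - y| / r)) := by
    refine le_trans (Real.exp_le_exp.2 (?_ : _ ≤ 1 + -(|y₀ - y| / r))) ?_
    · have h6 : a * (y₀ - y) ^ 2 = Real.pi / 5 * (|y₀ - y| / r) ^ 2 := by
        rw [ha, div_pow, sq_abs]; field_simp
      nlinarith [sq_nonneg (|y₀ - y| / r - 1), sq_nonneg (|y₀ - y| / r)]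
    · rw [Real.exp_add]
      exact mul_le_mul_of_nonneg_right (by linarith [Real.exp_one_lt_d9]) (by positivity)
  calc 3 * ω y ≤ 3 * (r⁻¹ * (3 * Real.exp (-(|y₀ - y| / r)))) := by simp only [hω]; gcongr
    _ = _ := by ring

/-- the coordinates `(η, ξ') ↦ (c₀ + η, ξ')` -/
noncomputable def cs (d : ℕ) (c₀ : ℝ) : ℝ × V d ≃ᵐ V (d + 1) :=
  ((MeasurableEquiv.addLeft c₀).prodCongr (MeasurableEquiv.toLp 2 (Fin d → ℝ)).symm).trans
    ((MeasurableEquiv.piFinSuccAbove (fun _ : Fin (d + 1) => ℝ) 0).symm.trans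
      (MeasurableEquiv.toLp 2 _))

lemma mp_cs (d : ℕ) (c₀ : ℝ) : MeasurePreserving (cs d c₀) volume volume :=
  ((measurePreserving_add_left volume c₀).prod (PiLp.volume_preserving_ofLp (Fin d))).trans
    ((volume_preserving_piFinSuccAbove (fun _ : Fin (d + 1) => ℝ) 0).symm.trans
      (PiLp.volume_preserving_toLp (Fin (d + 1))))

lemma cs_zero (c₀ : ℝ) (p : ℝ × V d) : cs d c₀ p 0 = c₀ + p.1 := rfl

lemma cs_succ (c₀ : ℝ) (p : ℝ × V d) (i : Fin d) : cs d c₀ p i.succ = p.2 i := rfl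

lemma norm_sq_cs (c₀ : ℝ) (p : ℝ × V d) : ‖cs d c₀ p‖ ^ 2 = (c₀ + p.1) ^ 2 + ‖p.2‖ ^ 2 := by
  simp only [EuclideanSpace.real_norm_sq_eq, Fin.sum_univ_succ, cs_zero, cs_succ]

lemma inner_cs (c₀ : ℝ) (x : V (d + 1)) (p : ℝ × V d) :
    ⟪x, cs d c₀ p⟫ = x 0 * (c₀ + p.1) + ⟪tl x, p.2⟫ := by
  simp only [PiLp.inner_apply, Fin.sum_univ_succ, cs_zero, cs_succ, tl, RCLike.inner_apply,
    conj_trivial, mul_comm]

theorem slice (d : ℕ) : SliceStmt d := by
  have hπ := Real.pi_pos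
  refine ⟨9 + 4 * Real.exp Real.pi ^ 2, by positivity, fun r T c₀ hr hT H hs1 hs2 => ?_⟩
  have hr0 : 0 < r := by linarith
  set K : Set (V (d + 1)) := {ξ | ‖ξ‖ ≤ 1 ∧ |ξ 0 - c₀| ≤ 1 / r} with hK
  have hKm : MeasurableSet K :=
    (measurableSet_le (f := fun ξ : V (d + 1) => ‖ξ‖) (by fun_prop) measurable_const).inter
      (measurableSet_le (f := fun ξ : V (d + 1) => |ξ 0 - c₀|) (by fun_prop) measurable_const)
  set h : V (d + 1) → ℂ := K.indicator H with hh
  have hhm : Measurable h := (Lp.stronglyMeasurable H).measurable.indicator hKm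
  have hhH : h =ᵐ[volume] H := by
    filter_upwards [hs1, hs2] with ξ h1 h2
    by_cases hξ : ξ ∈ K
    · exact indicator_of_mem hξ _
    · rw [hh, indicator_of_notMem hξ]
      rcases not_and_or.1 hξ with h3 | h3
      · exact (h1 (not_le.1 h3)).symm
      · exact (h2 (not_le.1 h3)).symm
  set f : ℝ × V d → ℂ := fun p => (((2 : ℝ) ^ (1 / 4 : ℝ) *
    Real.exp (Real.pi * r ^ 2 * p.1 ^ 2 - Real.pi * (c₀ + p.1) ^ 2) : ℝ) : ℂ) * h (cs d c₀ p) with hf
  have hfm : Measurable f := (by fun_prop : Measurable fun p : ℝ × V d => (((2 : ℝ) ^ (1 / 4 : ℝ) *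
    Real.exp (Real.pi * r ^ 2 * p.1 ^ 2 - Real.pi * (c₀ + p.1) ^ 2) : ℝ) : ℂ)).mul
      (hhm.comp (cs d c₀).measurable)
  have hf0 : ∀ p : ℝ × V d, 1 / r < |p.1| ∨ 1 < ‖p.2‖ → f p = 0 := fun p hp => by
    rw [hf]
    simp only
    rw [hh, indicator_of_notMem, mul_zero]
    rintro ⟨h1, h2⟩
    rw [cs_zero, add_sub_cancel_left] at h2
    have h3 := norm_sq_cs c₀ p
    rcases hp with hp | hp
    · linarith
    · nlinarith [sq_nonneg (c₀ + p.1), norm_nonneg (cs d c₀ p)]
  have hfb : ∀ p, ‖f p‖ ≤ 2 * Real.exp Real.pi * ‖h (cs d c₀ p)‖ := fun p => by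
    rcases lt_or_ge (1 / r) |p.1| with h1 | h1
    · rw [hf0 p (Or.inl h1), norm_zero]; positivity
    rw [hf, norm_mul, Complex.norm_real, Real.norm_of_nonneg (by positivity)]
    refine mul_le_mul_of_nonneg_right (mul_le_mul ?_ (Real.exp_le_exp.2 ?_) (by positivity)
      (by positivity)) (norm_nonneg _)
    · exact (Real.rpow_le_rpow_of_exponent_le one_le_two (by norm_num)).trans_eq (Real.rpow_one 2)
    · rw [le_div_iff₀ hr0] at h1
      have h2 : (|p.1| * r) ^ 2 ≤ 1 := pow_le_one₀ (by positivity) h1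
      rw [mul_pow, sq_abs] at h2
      nlinarith [mul_nonneg hπ.le (sq_nonneg (c₀ + p.1))]
  have hf2 : ∫⁻ p, ‖f p‖ₑ ^ 2 ≤ ENNReal.ofReal ((9 + 4 * Real.exp Real.pi ^ 2) * ‖H‖ ^ 2) := by
    calc _ ≤ ∫⁻ p, ENNReal.ofReal (9 + 4 * Real.exp Real.pi ^ 2) * ‖h (cs d c₀ p)‖ₑ ^ 2 := by
          refine lintegral_mono fun p => ?_
          rw [← ofReal_norm, ← ofReal_norm, ← ENNReal.ofReal_pow (norm_nonneg _),
            ← ENNReal.ofReal_pow (norm_nonneg _), ← ENNReal.ofReal_mul (by positivity)]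
          refine ENNReal.ofReal_le_ofReal ((pow_le_pow_left₀ (norm_nonneg _) (hfb p) 2).trans ?_)
          nlinarith [sq_nonneg ‖h (cs d c₀ p)‖]
      _ = _ := by
          rw [lintegral_const_mul' _ _ ENNReal.ofReal_ne_top,
            (mp_cs d c₀).lintegral_comp_emb (cs d c₀).measurableEmbedding fun ξ => ‖h ξ‖ₑ ^ 2,
            lintegral_congr_ae (hhH.mono fun ξ hξ => by simp only [hξ]; rfl), ← enorm_sq_L2,
            ENNReal.ofReal_mul (by positivity), ENNReal.ofReal_pow (norm_nonneg _), ofReal_norm]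
  obtain ⟨F, hFm, hF1, hF2, hF3⟩ := exists_curry hfm (ne_top_of_le_ne_top ENNReal.ofReal_ne_top hf2)
  rw [← hF3] at hf2
  have hF0 : ∀ η, 1 / r < |η| → F η = 0 := fun η hη => (hF1 η).elim
    (fun h1 => Lp.ext (h1.trans ((Filter.EventuallyEq.of_eq
      (funext fun ξ => hf0 (η, ξ) (Or.inl hη))).trans (Lp.coeFn_zero _ _ _).symm))) id
  have hFL : MemLp F 2 volume :=
    memLp_two_of_lintegral hFm.aestronglyMeasurable (ne_top_of_le_ne_top ENNReal.ofReal_ne_top hf2)
  have hFi : Integrable F := by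
    refine IntegrableOn.integrable_of_forall_notMem_eq_zero (s := Icc (-(1 / r)) (1 / r))
      ((hFL.restrict _).integrable one_le_two) fun η hη => hF0 η ?_
    exact not_le.1 fun h1 => hη (abs_le.1 h1)
  have hgi : ∀ t y, Integrable fun η => ph (y * η + t * η ^ 2) • F η := fun t y =>
    hFi.norm.mono' ((Red.continuous_ph.comp (by fun_prop)).aestronglyMeasurable.smul hFi.1)
      (.of_forall fun η => by rw [norm_smul, Red.norm_ph, one_mul])
  set g : ℝ → ℝ → L2 d := fun t y => ∫ η, ph (y * η + t * η ^ 2) • F η with hg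
  have hin : ∀ (φ : L2 d) t y, inner ℂ φ (g t y) = U1 t (fun η => inner ℂ φ (F η)) y := by
    intro φ t y
    rw [hg, ← integral_inner (hgi t y), U1]
    simp only [inner_smul_right, mul_comm]
  have hci : ∀ φ : L2 d, Integrable fun η => inner ℂ φ (F η) := fun φ => hFi.const_inner φ
  have hcL : ∀ φ : L2 d, MemLp (fun η => inner ℂ φ (F η)) 2 volume := fun φ => hFL.const_inner φ
  have hgc : ∀ t, Continuous (g t) := fun t =>
    continuous_of_dominated (bound := fun η => ‖F η‖) (fun y => (hgi t y).1)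
      (fun y => .of_forall fun η => by rw [norm_smul, Red.norm_ph, one_mul]) hFi.norm
      (.of_forall fun η => (Red.continuous_ph.comp (by fun_prop)).smul continuous_const)
  have hγ : Continuous (gam T 0 : Ph d → L2 d) :=
    (continuous_gam hT).comp (f := fun β : Ph d => ((0 : ℝ), β)) (by fun_prop)
  have hco : ∀ u : L2 d, ∫⁻ β, ‖co T 0 u β‖ₑ ^ 2 = ‖u‖ₑ ^ 2 := fun u => by
    rw [← ofReal_norm u, ← ENNReal.ofReal_pow (norm_nonneg _), ← integral_co_sq hT 0 u,
      ofReal_integral_eq_lintegral_ofReal (Iso.integrable_co_sq hT 0 u)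
        (.of_forall fun _ => by positivity)]
    simp only [← ofReal_norm, ENNReal.ofReal_pow (norm_nonneg _)]
  have hjm : StronglyMeasurable fun p : Ph d × ℝ => inner ℂ (gam T 0 p.1) (F p.2) :=
    (hγ.stronglyMeasurable.comp_measurable measurable_fst).inner
      (hFm.comp_measurable measurable_snd)
  have hlast : ∫⁻ β : Ph d, ∫⁻ η, ‖co T 0 (F η) β‖ₑ ^ 2 ≤
      ENNReal.ofReal ((9 + 4 * Real.exp Real.pi ^ 2) * ‖H‖ ^ 2) := by
    rw [lintegral_lintegral_swap (hjm.enorm.pow_const 2).aemeasurable]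
    simpa only [hco] using hf2
  refine ⟨g, fun β η => co T 0 (F η) β, hgc, fun t y => ?_, fun t => ?_, fun z t₀ ht => ?_,
    fun t y β => hin _ t y, fun β => hcL _, fun β η hη => by simp [co, hF0 η hη], ?_, ?_⟩
  · set s : Set (V d) := {ξ | 1 < ‖ξ‖} with hs
    have hsm : MeasurableSet s := measurableSet_lt measurable_const (by fun_prop)
    set P := LpToLpRestrictCLM (V d) ℂ ℂ volume 2 s with hP
    have h1 : ∀ η, P (F η) = 0 := fun η => (hF1 η).elim (fun h1 => Lp.ext (by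
      filter_upwards [LpToLpRestrictCLM_coeFn ℂ s (F η), ae_restrict_of_ae h1, ae_restrict_mem hsm,
        Lp.coeFn_zero ℂ 2 (volume.restrict s)] with ξ a1 a2 a3 a4
      rw [a1, a2, a4, hf0 (η, ξ) (Or.inr a3)]; rfl)) fun h1 => by rw [h1, map_zero]
    have h2 : P (g t y) = 0 := by
      rw [hg, ← P.integral_comp_comm (hgi t y)]
      simp only [map_smul, h1, smul_zero, integral_zero]
    refine (ae_restrict_iff' hsm).1 ?_
    filter_upwards [LpToLpRestrictCLM_coeFn ℂ s (g t y), Lp.coeFn_zero ℂ 2 (volume.restrict s)]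
      with ξ a1 a2
    rw [← a1, ← hP, h2, a2]; rfl
  · simp only [ENNReal.ofReal_pow (norm_nonneg _), ofReal_norm, ← hco]
    rw [lintegral_lintegral_swap]
    · refine le_trans (le_of_eq (lintegral_congr fun β => ?_)) hlast
      simp only [co, hin]
      exact lintegral_U1 (hci _) (hcL _) t
    · exact (((hγ.comp continuous_snd).inner
        ((hgc t).comp continuous_fst)).measurable.enorm.pow_const 2).aemeasurable
  · have e : inner ℂ (pt z) H = ph (z.1 0 * c₀ + z.2 * c₀ ^ 2) * ∫ η, inner ℂ (pt (pr z)) (F η) *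
        (Real.exp (-(Real.pi * r ^ 2 * η ^ 2)) * ph (yc c₀ z * η + z.2 * η ^ 2)) := by
      have i1 : Integrable fun ξ => conj (gamF 1 z.2 (z.1, 0) ξ) * h ξ :=
        (memLp_gamF one_pos z.2 (z.1, 0)).star.integrable_mul ((Lp.memLp H).ae_eq hhH.symm)
      have i2 : Integrable (fun p => conj (gamF 1 z.2 (z.1, 0) (cs d c₀ p)) * h (cs d c₀ p))
          (volume.prod volume) := (mp_cs d c₀).integrable_comp_of_integrable i1
      rw [pt, ← co, co_eq one_pos, integral_congr_ae (g := fun ξ => conj (gamF 1 z.2 (z.1, 0) ξ) * h ξ)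
        (hhH.mono fun ξ hξ => by simp only [hξ]), ← (mp_cs d c₀).integral_comp',
        Measure.volume_eq_prod, integral_prod _ i2,
        ← integral_const_mul]
      refine integral_congr_ae (hF2.mono fun η hη => ?_)
      simp only
      rw [pt, ← co, co_eq one_pos, ← integral_mul_const, ← integral_const_mul]
      refine integral_congr_ae (hη.mono fun ξ hξ => ?_)
      simp only
      rw [hξ, hf, conj_gamF, conj_gamF]
      simp only [sub_zero, norm_sq_cs, inner_cs, pr, yc, one_pow, mul_one, Nat.cast_add,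
        Nat.cast_one, add_div, Real.rpow_add two_pos, Complex.ofReal_mul, Complex.ofReal_exp, ph]
      have : ∀ a b e₁ e₂ e₃ e₄ e₅ e₆ u : ℂ, e₁ = e₂ + e₃ + e₄ + e₅ + e₆ →
          a * b * Complex.exp e₁ * u = Complex.exp e₂ * (a * Complex.exp e₃ *
            (b * Complex.exp e₄ * u) * (Complex.exp e₅ * Complex.exp e₆)) := by
        intro a b e₁ e₂ e₃ e₄ e₅ e₆ u he
        simp only [he, Complex.exp_add]; ring
      refine this _ _ _ _ _ _ _ _ _ ?_
      push_cast; ring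
    rw [e, norm_mul, Red.norm_ph, one_mul]
    refine (one_dim hr0 ht (hci _) _).trans (lintegral_mono fun y => ENNReal.ofReal_le_ofReal ?_)
    rw [hin]
    gcongr
    exact le_add_of_nonneg_right (by positivity)
  · exact (hjm.norm.pow 2).integral_prod_right'.measurable
  · refine le_trans (le_of_eq (lintegral_congr fun β => ?_)) hlast
    simp only [co]
    rw [ofReal_integral_eq_lintegral_ofReal ((memLp_two_iff_integrable_sq_norm (hcL _).1).1 (hcL _))
      (.of_forall fun _ => by positivity)]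
    simp only [← ofReal_norm, ENNReal.ofReal_pow (norm_nonneg _)]

end Crest.Agent.N76.II.B
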