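import Crest.Agent.N76.II.Defs

/-! # Row 76, part II B+D (`TII ⇐ TI1 + LP + St`): definitions and leaves (helper8). -/

set_option autoImplicit false

open MeasureTheory Set Metric
open scoped ENNReal RealInnerProductSpace

namespace Crest.Agent.N76.II.B

open Crest.Agent.N76.Red (V ph)
open Crest.Agent.N76.G

/-- the part of theorem I used here: few balls, frequencies in a thin slab -/
def TI1 (n : ℕ) : Prop :=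
  ∀ α : ℝ, 0 < α → ∃ δ C : ℝ, 0 < δ ∧ 0 ≤ C ∧ ∀ R : ℝ, 1 ≤ R →
    ∀ X : Finset (V n × ℝ), Graph R X →
    ∀ H : L2 n, (∀ᵐ ξ : V n, 1 < ‖ξ‖ → H ξ = 0) →
    ∀ (ν : V n) (c : ℝ), ‖ν‖ = 1 → (∀ᵐ ξ : V n, R ^ δ / Real.sqrt R < |⟪ν, ξ⟫ - c| → H ξ = 0) →
    ∀ r : ℝ, 1 ≤ r → r ≤ Real.sqrt R → Cov X id r (R ^ ((n : ℝ) - α) / prof n R r) →
    En X id (fun _ => 1) (fun _ => H) ≤ C * R ^ ((n : ℝ) / (n + 1) - δ) * ‖H‖ ^ 2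

variable {d : ℕ}

/-- the last `d` coordinates -/
noncomputable def tl (x : V (d + 1)) : V d := WithLp.toLp 2 fun i => x i.succ

/-- the projection `z ↦ z'` to `ℝ^d × ℝ` -/
noncomputable def pr (z : V (d + 1) × ℝ) : V d × ℝ := (tl z.1, z.2)

/-- the slab coordinate `y = x₀ + 2 c₀ t` -/
noncomputable def yc (c₀ : ℝ) (z : V (d + 1) × ℝ) : ℝ := z.1 0 + 2 * c₀ * z.2

/-- the line through the point `u` with frequency `ζ` -/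
noncomputable def thru (u : V d × ℝ) (ζ : V d) : Ph d := (u.1 + (2 * u.2) • ζ, ζ)

/-- **B1** (slicing in the direction `e₀`). -/
def SliceStmt (d : ℕ) : Prop :=
  ∃ C : ℝ, 0 ≤ C ∧ ∀ r T c₀ : ℝ, 1 ≤ r → 0 < T → ∀ H : L2 (d + 1),
    (∀ᵐ ξ : V (d + 1), 1 < ‖ξ‖ → H ξ = 0) → (∀ᵐ ξ : V (d + 1), 1 / r < |ξ 0 - c₀| → H ξ = 0) →
    ∃ (g : ℝ → ℝ → L2 d) (cc : Ph d → ℝ → ℂ),
      (∀ t, Continuous (g t)) ∧ (∀ t y, ∀ᵐ ξ : V d, 1 < ‖ξ‖ → g t y ξ = 0) ∧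
      (∀ t, ∫⁻ y, ENNReal.ofReal (‖g t y‖ ^ 2) ≤ ENNReal.ofReal (C * ‖H‖ ^ 2)) ∧
      (∀ (z : V (d + 1) × ℝ) (t₀ : ℝ), |z.2 - t₀| ≤ r ^ 2 →
        ENNReal.ofReal (‖inner ℂ (pt z) H‖ ^ 2) ≤
          ∫⁻ y, ENNReal.ofReal (C / r * Real.exp (-(|yc c₀ z - y| / r)) *
            ‖inner ℂ (pt (pr z)) (g t₀ y)‖ ^ 2)) ∧
      (∀ t y β, co T 0 (g t y) β = U1 t (cc β) y) ∧
      (∀ β, MemLp (cc β) 2 volume) ∧ (∀ β η, 1 / r < |η| → cc β η = 0) ∧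
      Measurable (fun β => ∫ η, ‖cc β η‖ ^ 2) ∧
      ∫⁻ β, ENNReal.ofReal (∫ η, ‖cc β η‖ ^ 2) ≤ ENNReal.ofReal (C * ‖H‖ ^ 2)

/-- truncated column density -/
noncomputable def cm {ι : Type*} (X : Finset ι) (p : ι → V d × ℝ) (l A : ℝ) (u : V d × ℝ) : ℝ :=
  min A (dens X p (fun _ => 1) l u)

/-- **D1** (bush): through every point few lines see much column mass. -/
def BushStmt (d : ℕ) : Prop :=
  ∃ C : ℝ, 0 ≤ C ∧ ∀ (ι : Type) (X : Finset ι) (p : ι → V d × ℝ) (l A R σ : ℝ) (u : V d × ℝ),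
    0 < l → 0 ≤ A → 0 < R → 0 < σ →
    ∫⁻ ζ in closedBall (0 : V d) 3,
        ENNReal.ofReal (xray (cm X p l A) (-(4 * R)) (4 * R) (thru u ζ)) ≤
      ENNReal.ofReal (C * (A * (σ * R) + (X.card : ℝ) / (σ * R) ^ d))

end Crest.Agent.N76.II.B
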