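import Crest.Agent.N76.II.B.Geo
import Crest.Agent.N76.II.B.Bush
import Crest.Agent.N76.G.Tail

/-! # Row 76, part II D: column densities and the hypotheses of `St` (helper8). -/

set_option autoImplicit false

open MeasureTheory Set Metric
open scoped ENNReal RealInnerProductSpace

namespace Crest.Agent.N76.II.B

open Crest.Agent.N76.Red (V ph)
open Crest.Agent.N76.G

/-! ### integration helpers -/

lemma sum_lintegral_le {α κ : Type*} [MeasurableSpace α] (μ : Measure α) (s : Finset κ)
    (f : κ → α → ℝ≥0∞) : ∑ k ∈ s, ∫⁻ a, f k a ∂μ ≤ ∫⁻ a, ∑ k ∈ s, f k a ∂μ := by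
  classical
  induction s using Finset.induction_on with
  | empty => simp
  | insert a s ha ih =>
    simp only [Finset.sum_insert ha]
    exact (add_le_add_right ih _).trans (le_lintegral_add _ _)

lemma ofReal_integral_le {α : Type*} [MeasurableSpace α] (μ : Measure α) {f : α → ℝ}
    (hf : ∀ a, 0 ≤ f a) : ENNReal.ofReal (∫ a, f a ∂μ) ≤ ∫⁻ a, ENNReal.ofReal (f a) ∂μ := by
  by_cases h : Integrable f μ
  · exact (ofReal_integral_eq_lintegral_ofReal h (.of_forall hf)).le
  · rw [integral_undef h]; simp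

lemma lintegral_cells {r : ℝ} (hr : 0 < r) (f : ℤ → ℝ≥0∞) (a l : ℝ) :
    ∫⁻ y in Icc a (a + l), f ⌊y / r⌋ ≤
      ∑ m ∈ Finset.Icc ⌊a / r⌋ ⌊(a + l) / r⌋, ENNReal.ofReal r * f m := by
  rw [← lintegral_indicator measurableSet_Icc]
  calc _ ≤ ∫⁻ y, ∑ m ∈ Finset.Icc ⌊a / r⌋ ⌊(a + l) / r⌋,
        (Ico ((m : ℝ) * r) ((m + 1) * r)).indicator (fun _ => f m) y := by
        refine lintegral_mono fun y => ?_
        by_cases hy : y ∈ Icc a (a + l)
        · rw [indicator_of_mem hy]
          have hm : ⌊y / r⌋ ∈ Finset.Icc ⌊a / r⌋ ⌊(a + l) / r⌋ :=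
            Finset.mem_Icc.2 ⟨Int.floor_mono (by gcongr; exact hy.1),
              Int.floor_mono (by gcongr; exact hy.2)⟩
          refine le_trans (le_of_eq ?_) (Finset.single_le_sum (fun _ _ => zero_le) hm)
          rw [indicator_of_mem]
          constructor
          · rw [← le_div_iff₀ hr]; exact Int.floor_le _
          · rw [← div_lt_iff₀ hr]; exact Int.lt_floor_add_one _
        · rw [indicator_of_notMem hy]; exact zero_le
    _ = _ := by
        rw [lintegral_finsetSum _ fun m _ => measurable_const.indicator measurableSet_Ico]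
        refine Finset.sum_congr rfl fun m _ => ?_
        rw [lintegral_indicator measurableSet_Ico, setLIntegral_const, Real.volume_Ico, mul_comm]
        congr 2; ring

lemma jensen_rpow {f : ℝ → ℝ} (hf : Continuous f) (h0 : ∀ s, 0 ≤ f s) {a b q : ℝ} (hab : a < b)
    (hq : 1 ≤ q) : ((∫ s in a..b, f s ^ (1 / q)) / (b - a)) ^ q ≤ (∫ s in a..b, f s) / (b - a) := by
  have hq0 : 0 < q := by linarith
  have hba : 0 < b - a := by linarith
  have hc : Continuous fun s => f s ^ (1 / q) :=
    hf.rpow_const fun _ => Or.inr (by positivity)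
  have h := (Real.concaveOn_rpow (p := 1 / q) (by positivity)
    (by rw [div_le_one hq0]; exact hq)).le_map_set_average (μ := volume) (t := Ioc a b) (f := f)
    (continuousOn_id.rpow_const fun _ _ => Or.inr (by positivity)) isClosed_Ici
    (by simp [hab]) (by simp) (.of_forall h0) (hf.integrableOn_Icc.mono_set Ioc_subset_Icc_self)
    (hc.integrableOn_Icc.mono_set Ioc_subset_Icc_self)
  rw [setAverage_eq, setAverage_eq, Real.volume_real_Ioc_of_le hab.le, smul_eq_mul, smul_eq_mul,
    ← intervalIntegral.integral_of_le hab.le, ← intervalIntegral.integral_of_le hab.le,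
    ← div_eq_inv_mul, ← div_eq_inv_mul] at h
  have h1 : 0 ≤ (∫ s in a..b, f s) / (b - a) :=
    div_nonneg (intervalIntegral.integral_nonneg hab.le fun s _ => h0 s) hba.le
  have h2 : 0 ≤ (∫ s in a..b, f s ^ (1 / q)) / (b - a) :=
    div_nonneg (intervalIntegral.integral_nonneg hab.le fun s _ => Real.rpow_nonneg (h0 s) _) hba.le
  calc _ ≤ (((∫ s in a..b, f s) / (b - a)) ^ (1 / q)) ^ q := Real.rpow_le_rpow h2 h hq0.le
    _ = _ := by rw [← Real.rpow_mul h1, one_div_mul_cancel hq0.ne', Real.rpow_one]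

lemma sum_windows_le {f : ℝ → ℝ} (hf : Continuous f) (h0 : ∀ s, 0 ≤ f s) {L R : ℝ} (hL : 0 < L)
    (hLR : L ≤ R) (K : Finset ℤ) (hK : ∀ k ∈ K, |(k : ℝ) * L| ≤ 2 * R) :
    ∑ k ∈ K, ∫ s in ((k - 1) * L)..((k + 2) * L), f s ≤ 3 * ∫ s in (-(4 * R))..(4 * R), f s := by
  classical
  have hi : ∀ a b : ℝ, Integrable ((Ioc a b).indicator f) := fun a b =>
    (integrable_indicator_iff measurableSet_Ioc).2
      (hf.integrableOn_Icc.mono_set Ioc_subset_Icc_self)
  have e1 : ∀ a b : ℝ, a ≤ b → ∫ s in a..b, f s = ∫ s, (Ioc a b).indicator f s := fun a b h => by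
    rw [intervalIntegral.integral_of_le h, integral_indicator measurableSet_Ioc]
  rw [e1 _ _ (by linarith), ← integral_const_mul,
    Finset.sum_congr rfl fun k _ => e1 _ _ (by nlinarith),
    ← integral_finsetSum _ fun k _ => hi _ _]
  refine integral_mono (integrable_finsetSum _ fun k _ => hi _ _) ((hi _ _).const_mul _)
    fun s => ?_
  set G := K.filter fun k : ℤ => s ∈ Ioc (((k : ℝ) - 1) * L) ((k + 2) * L) with hG
  have h1 : ∑ k ∈ K, (Ioc (((k : ℝ) - 1) * L) ((k + 2) * L)).indicator f s = G.card * f s := by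
    simp only [indicator_apply]
    rw [← Finset.sum_filter, Finset.sum_const, nsmul_eq_mul]
  have h2 : G.card ≤ 3 := by
    have : G ⊆ Finset.Ico (⌈s / L⌉ - 2) (⌈s / L⌉ + 1) := by
      intro k hk
      obtain ⟨h3, h4⟩ := (Finset.mem_filter.1 hk).2
      rw [← lt_div_iff₀ hL] at h3
      rw [← div_le_iff₀ hL] at h4
      have h5 : k - 1 < ⌈s / L⌉ := Int.lt_ceil.2 (by push_cast; exact h3)
      have h6 : ⌈s / L⌉ ≤ k + 2 := Int.ceil_le.2 (by push_cast; exact h4)
      exact Finset.mem_Ico.2 ⟨by omega, by omega⟩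
    have h7 := Finset.card_le_card this
    rw [Int.card_Ico] at h7
    omega
  simp only
  rw [h1]
  by_cases hs : s ∈ Ioc (-(4 * R)) (4 * R)
  · rw [indicator_of_mem hs]
    have : (G.card : ℝ) ≤ 3 := by exact_mod_cast h2
    exact mul_le_mul_of_nonneg_right this (h0 s)
  · have : G = ∅ := by
      refine Finset.eq_empty_of_forall_notMem fun k hk => hs ?_
      obtain ⟨h3, h4, h5⟩ := Finset.mem_filter.1 hk
      have h6 := abs_le.1 (hK k h3)
      constructor <;> nlinarith
    rw [this, indicator_of_notMem hs]; simp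

variable {d : ℕ}

/-! ### densities -/

section Dens

variable {ι : Type*} (X : Finset ι) (p : ι → V d × ℝ)

lemma continuous_vv (w : ι → ℝ) (r : ℝ) : Continuous (vv X p w r) :=
  (continuous_dens X p w r).rpow_const fun _ => Or.inr (by positivity)

lemma continuous_cm (l A : ℝ) : Continuous (cm X p l A) :=
  continuous_const.min (continuous_dens X p _ l)

lemma cm_nonneg {l A : ℝ} (hl : 0 < l) (hA : 0 ≤ A) (u : V d × ℝ) : 0 ≤ cm X p l A u :=
  le_min hA (dens_nonneg X p (fun _ _ => zero_le_one) hl u)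

lemma cm_lip {l A : ℝ} (hl : 0 < l) (hA : 0 ≤ A) {u u' : V d × ℝ} (h : dist u u' ≤ l) :
    cm X p l A u ≤ Real.exp 1 * cm X p l A u' := by
  have he : 1 ≤ Real.exp 1 := Real.one_le_exp zero_le_one
  have h1 : dens X p (fun _ => 1) l u ≤ Real.exp 1 * dens X p (fun _ => 1) l u' := by
    unfold dens
    rw [← mul_div_assoc, Finset.mul_sum]
    refine div_le_div_of_nonneg_right (Finset.sum_le_sum fun i _ => ?_) (by positivity)
    rw [one_mul, one_mul, ← Real.exp_add]
    refine Real.exp_le_exp.2 ?_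
    have h2 := dist_triangle_left u' (p i) u
    have h3 : dist u' (p i) / l ≤ 1 + dist u (p i) / l := by
      rw [div_le_iff₀ hl, add_mul, div_mul_cancel₀ _ hl.ne']; linarith
    linarith
  unfold cm
  rw [mul_min_of_nonneg _ _ (by linarith)]
  exact min_le_min (by nlinarith) h1

end Dens

lemma continuous_line {W : V d × ℝ → ℝ} (hW : Continuous W) :
    Continuous fun q : Ph d × ℝ => W (pos q.2 q.1, q.2) := by
  unfold pos; fun_prop

lemma continuous_xray {W : V d × ℝ → ℝ} (hW : Continuous W) (a b : ℝ) :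
    Continuous (xray W a b) :=
  intervalIntegral.continuous_parametric_intervalIntegral_of_continuous'
    (f := fun β t => W (pos t β, t)) (continuous_line hW) a b

lemma continuous_line' {W : V d × ℝ → ℝ} (hW : Continuous W) (β : Ph d) :
    Continuous fun t : ℝ => W (pos t β, t) := by
  unfold pos; fun_prop

lemma xray_nonneg {W : V d × ℝ → ℝ} (h0 : ∀ u, 0 ≤ W u) {a b : ℝ} (hab : a ≤ b) (β : Ph d) :
    0 ≤ xray W a b β :=
  intervalIntegral.integral_nonneg hab fun _ _ => h0 _

lemma xray_le {W : V d × ℝ → ℝ} (hW : Continuous W) {A : ℝ} (h : ∀ u, W u ≤ A) {a b : ℝ}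
    (hab : a ≤ b) (β : Ph d) : xray W a b β ≤ (b - a) * A := by
  have := intervalIntegral.integral_mono_on hab
    ((continuous_line' hW β).intervalIntegrable (μ := volume) a b)
    (continuous_const.intervalIntegrable (μ := volume) a b) fun t _ => h (pos t β, t)
  simpa [xray] using this

lemma xray_cm_lip {ι : Type*} (X : Finset ι) (p : ι → V d × ℝ) {l A a b : ℝ} (hl : 0 < l)
    (hA : 0 ≤ A) (hab : a ≤ b) {β β' : Ph d} (h : ∀ s ∈ Icc a b, ‖pos s β - pos s β'‖ ≤ l) :
    xray (cm X p l A) a b β ≤ Real.exp 1 * xray (cm X p l A) a b β' := by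
  unfold xray
  rw [← intervalIntegral.integral_const_mul]
  refine intervalIntegral.integral_mono_on hab
    ((continuous_line' (continuous_cm X p l A) β).intervalIntegrable a b)
    (((continuous_line' (continuous_cm X p l A) β').intervalIntegrable a b).const_mul _)
    fun s hs => cm_lip X p hl hA ?_
  rw [Prod.dist_eq, dist_self, dist_eq_norm]
  exact max_le (h s hs) hl.le

/-- **the hypothesis of `St`**: the weights of the slices have bounded `L^q` norms on intervals -/
lemma col_bound {A : ℝ} {X : Finset (V (d + 1) × ℝ)} {c₀ r l Lp L : ℝ} {D : ℕ}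
    (hA : ∀ (E : Finset (V (d + 1) × ℝ)) (a : ℝ) (u : V d × ℝ), E ⊆ X →
      (∀ z ∈ E, a ≤ yc c₀ z ∧ yc c₀ z ≤ a + Lp) → dens E pr (fun _ => 1) Lp u ≤ A)
    (hr : 0 < r) (hl : 0 ≤ l) (hL : 0 < L) (hLp : l + (2 * D + 2) * r ≤ Lp)
    (Z : ℤ → Finset (V (d + 1) × ℝ)) (hZ : ∀ m, Z m ⊆ X)
    (hZm : ∀ m, ∀ z ∈ Z m, |mi r c₀ z - m| ≤ D) (t : ℝ) (β : Ph d) (y₀ : ℝ) :
    ∫⁻ y in Icc y₀ (y₀ + l), ENNReal.ofReal
        ((xray (vv (Z ⌊y / r⌋) pr (ww r c₀ ⌊y / r⌋) Lp) t (t + 3 * L) β / L) ^ (((d : ℝ) + 2) / 2)) ≤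
      ENNReal.ofReal (3 ^ (((d : ℝ) + 2) / 2) * (xray (cm X pr Lp A) t (t + 3 * L) β / L)) := by
  classical
  set q : ℝ := ((d : ℝ) + 2) / 2 with hq
  have hq1 : 1 ≤ q := by rw [hq]; linarith [Nat.cast_nonneg (α := ℝ) d]
  have hLp0 : 0 < Lp := by
    have : 0 < (2 * (D : ℝ) + 2) * r := by positivity
    linarith
  have hab : t ≤ t + 3 * L := by linarith
  have hd0 : ∀ m u, 0 ≤ dens (Z m) pr (ww r c₀ m) Lp u := fun m u =>
    dens_nonneg _ pr (fun z _ => ww_nonneg hr c₀ m z) hLp0 u
  set s := Finset.Icc ⌊y₀ / r⌋ ⌊(y₀ + l) / r⌋ with hs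
  have h1 : ∀ m, (xray (vv (Z m) pr (ww r c₀ m) Lp) t (t + 3 * L) β / L) ^ q ≤
      3 ^ q / L * xray (dens (Z m) pr (ww r c₀ m) Lp) t (t + 3 * L) β := by
    intro m
    have h2 := jensen_rpow (continuous_line' (continuous_dens (Z m) pr (ww r c₀ m) Lp) β)
      (fun s => hd0 m _) (a := t) (b := t + 3 * L) (by linarith) hq1
    have h3 : xray (vv (Z m) pr (ww r c₀ m) Lp) t (t + 3 * L) β / L =
        3 * ((∫ s in t..(t + 3 * L), dens (Z m) pr (ww r c₀ m) Lp (pos s β, s) ^ (1 / q)) /
          (t + 3 * L - t)) := by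
      have : 2 / ((d : ℝ) + 2) = 1 / q := by rw [hq]; field_simp
      unfold xray vv
      rw [this, add_sub_cancel_left]
      field_simp
    have h4 := xray_nonneg (hd0 m) hab β
    rw [h3, Real.mul_rpow (by norm_num) (div_nonneg (intervalIntegral.integral_nonneg hab
      fun s _ => Real.rpow_nonneg (hd0 m _) _) (by linarith))]
    calc _ ≤ 3 ^ q * (xray (dens (Z m) pr (ww r c₀ m) Lp) t (t + 3 * L) β / (t + 3 * L - t)) :=
          mul_le_mul_of_nonneg_left h2 (by positivity)
      _ ≤ 3 ^ q * (xray (dens (Z m) pr (ww r c₀ m) Lp) t (t + 3 * L) β / L) := by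
          gcongr; linarith
      _ = _ := by ring
  have h5 : ∀ u, ∑ m ∈ s, r * dens (Z m) pr (ww r c₀ m) Lp u ≤ cm X pr Lp A u := by
    intro u
    set E := X.filter fun z => ((⌊y₀ / r⌋ : ℝ) - D) * r ≤ yc c₀ z ∧
      yc c₀ z ≤ ((⌊y₀ / r⌋ : ℝ) - D) * r + Lp with hE
    have hZE : ∀ m ∈ s, Z m ⊆ E := by
      intro m hm z hz
      obtain ⟨h6, h7⟩ := Finset.mem_Icc.1 hm
      obtain ⟨h8, h9⟩ := abs_le.1 (hZm m z hz)
      obtain ⟨h10, h11⟩ := mi_bounds hr c₀ z
      have h12 : ((⌊y₀ / r⌋ : ℝ) - D) ≤ mi r c₀ z := by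
        exact_mod_cast (by omega : ⌊y₀ / r⌋ - D ≤ mi r c₀ z)
      have h13 : (mi r c₀ z : ℝ) ≤ ⌊(y₀ + l) / r⌋ + D := by
        exact_mod_cast (by omega : mi r c₀ z ≤ ⌊(y₀ + l) / r⌋ + D)
      have h14 : (⌊(y₀ + l) / r⌋ : ℝ) * r ≤ y₀ + l := by
        rw [← le_div_iff₀ hr]; exact Int.floor_le _
      have h15 : y₀ < (⌊y₀ / r⌋ + 1) * r := by
        rw [← div_lt_iff₀ hr]; exact Int.lt_floor_add_one _
      refine Finset.mem_filter.2 ⟨hZ m hz, by nlinarith, by nlinarith⟩
    have h16 : ∑ m ∈ s, r * dens (Z m) pr (ww r c₀ m) Lp u ≤ dens E pr (fun _ => 1) Lp u := by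
      calc _ ≤ ∑ m ∈ s, r * dens E pr (ww r c₀ m) Lp u := by
            refine Finset.sum_le_sum fun m hm => mul_le_mul_of_nonneg_left ?_ hr.le
            unfold dens
            refine div_le_div_of_nonneg_right (Finset.sum_le_sum_of_subset_of_nonneg (hZE m hm)
              fun z _ _ => mul_nonneg (ww_nonneg hr c₀ m z) (Real.exp_pos _).le) (by positivity)
        _ = (∑ z ∈ E, (r * ∑ m ∈ s, ww r c₀ m z) * Real.exp (-(dist u (pr z) / Lp))) /
              Lp ^ (d + 1) := by
            unfold dens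
            simp only [← mul_div_assoc, ← Finset.sum_div, Finset.mul_sum, Finset.sum_mul]
            rw [Finset.sum_comm]
            simp only [mul_assoc]
        _ ≤ _ := by
            unfold dens
            gcongr with z hz
            calc r * ∑ m ∈ s, ww r c₀ m z ≤ r * (1 / r) := by gcongr; exact sum_ww_le hr c₀ s z
              _ = 1 := by field_simp
    refine le_min (h16.trans (hA E _ u (Finset.filter_subset _ _)
      fun z hz => (Finset.mem_filter.1 hz).2)) (h16.trans ?_)
    unfold dens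
    refine div_le_div_of_nonneg_right (Finset.sum_le_sum_of_subset_of_nonneg
      (Finset.filter_subset _ _) fun z _ _ => by positivity) (by positivity)
  refine (lintegral_cells hr (fun m => ENNReal.ofReal
    ((xray (vv (Z m) pr (ww r c₀ m) Lp) t (t + 3 * L) β / L) ^ q)) y₀ l).trans ?_
  calc _ ≤ ∑ m ∈ s, ENNReal.ofReal
        (r * (3 ^ q / L * xray (dens (Z m) pr (ww r c₀ m) Lp) t (t + 3 * L) β)) := by
        refine Finset.sum_le_sum fun m _ => ?_
        rw [ENNReal.ofReal_mul hr.le]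
        gcongr
        exact h1 m
    _ = ENNReal.ofReal (∑ m ∈ s,
        r * (3 ^ q / L * xray (dens (Z m) pr (ww r c₀ m) Lp) t (t + 3 * L) β)) := by
        rw [ENNReal.ofReal_sum_of_nonneg fun m _ => by
          have := xray_nonneg (hd0 m) hab β
          positivity]
    _ ≤ _ := by
        refine ENNReal.ofReal_le_ofReal ?_
        have h6 : ∑ m ∈ s, r * xray (dens (Z m) pr (ww r c₀ m) Lp) t (t + 3 * L) β ≤
            xray (cm X pr Lp A) t (t + 3 * L) β := by
          have hi : ∀ m, IntervalIntegrable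
              (fun s => r * dens (Z m) pr (ww r c₀ m) Lp (pos s β, s)) volume t (t + 3 * L) :=
            fun m => ((continuous_line' (continuous_dens _ _ _ _) β).intervalIntegrable _ _).const_mul _
          unfold xray
          simp only [← intervalIntegral.integral_const_mul]
          rw [← intervalIntegral.integral_finsetSum fun m _ => hi m]
          refine intervalIntegral.integral_mono_on hab ?_
            ((continuous_line' (continuous_cm X pr Lp A) β).intervalIntegrable _ _)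
            fun s _ => h5 _
          exact (continuous_finsetSum _ fun m _ => continuous_const.mul
            (continuous_line' (continuous_dens _ _ _ _) β)).intervalIntegrable _ _
        calc _ = 3 ^ q / L * ∑ m ∈ s,
              r * xray (dens (Z m) pr (ww r c₀ m) Lp) t (t + 3 * L) β := by
              rw [Finset.mul_sum]; exact Finset.sum_congr rfl fun m _ => by ring
          _ ≤ 3 ^ q / L * xray (cm X pr Lp A) t (t + 3 * L) β := by gcongr
          _ = _ := by ring

end Crest.Agent.N76.II.B
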