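import Crest.Agent.N76.II.B.Col
import Crest.Agent.N76.II.B.Slice
import Crest.Agent.N76.St.Main

/-! # Row 76, part II D: the lossless estimate for the regular points (helper8). -/

set_option autoImplicit false

open MeasureTheory Set Metric
open scoped ENNReal RealInnerProductSpace

namespace Crest.Agent.N76.II.B

open Crest.Agent.N76.Red (V ph)
open Crest.Agent.N76.G

variable {d : ℕ}

lemma far_le {T : ℝ} (hT : 1 ≤ T) (g : L2 d) (hg : ∀ᵐ ξ : V d, 1 < ‖ξ‖ → g ξ = 0) :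
    ‖loc T 0 {β : Ph d | 2 < ‖β.2‖} g‖ ^ 2 ≤ 2 ^ d * Real.exp (-T) * ‖g‖ ^ 2 := by
  have hT0 : 0 < T := by linarith
  have hT2 : 0 < T / 2 := by linarith
  have hpi := Real.pi_gt_three
  have hm : MeasurableSet {β : Ph d | 2 < ‖β.2‖} :=
    (isOpen_lt continuous_const (by fun_prop)).measurableSet
  refine (norm_loc_sq_le hT0 0 hm g).trans ?_
  have h1 := (Iso.integrable_co_sq hT0 0 g).indicator hm
  have h2 := Iso.integrable_co_sq hT2 0 g
  rw [← integral_indicator hm, ← integral_co_sq hT2 0 g]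
  rw [Measure.volume_eq_prod] at h1 h2 ⊢
  rw [integral_prod_symm _ h1, integral_prod_symm _ h2, ← integral_const_mul]
  refine integral_mono h1.integral_prod_right (h2.integral_prod_right.const_mul _) fun ζ => ?_
  simp only
  by_cases hζ : 2 < ‖ζ‖
  · have e : ∀ y : V d, ({β : Ph d | 2 < ‖β.2‖}).indicator (fun β => ‖co T 0 g β‖ ^ 2) (y, ζ) =
        ‖co T 0 g (y, ζ)‖ ^ 2 := fun y => indicator_of_mem (by exact hζ) _
    simp only [e]
    rw [(integral_co_sq_fst hT0 0 g ζ).2, (integral_co_sq_fst hT2 0 g ζ).2]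
    have e2 : (2 * T ^ 2) ^ ((d : ℝ) / 2) = 2 ^ d * (2 * (T / 2) ^ 2) ^ ((d : ℝ) / 2) := by
      have : 2 * T ^ 2 = 2 ^ (2 : ℝ) * (2 * (T / 2) ^ 2) := by rw [Real.rpow_two]; ring
      rw [this, Real.mul_rpow (by positivity) (by positivity), ← Real.rpow_mul (by norm_num),
        show (2 : ℝ) * ((d : ℝ) / 2) = d by ring, Real.rpow_natCast]
    have h3 : ∫ ξ, Real.exp (-2 * Real.pi * T ^ 2 * ‖ξ - ζ‖ ^ 2) * ‖g ξ‖ ^ 2 ≤
        Real.exp (-T) * ∫ ξ, Real.exp (-2 * Real.pi * (T / 2) ^ 2 * ‖ξ - ζ‖ ^ 2) * ‖g ξ‖ ^ 2 := by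
      rw [← integral_const_mul]
      refine integral_mono_of_nonneg (.of_forall fun ξ => by positivity)
        (Integrable.const_mul ?_ _) ?_
      · refine (Iso.integrable_norm_sq_L2 g).bdd_mul (c := 1)
          (Continuous.aestronglyMeasurable (by fun_prop)) (.of_forall fun ξ => ?_)
        rw [Real.norm_of_nonneg (Real.exp_pos _).le, Real.exp_le_one_iff]
        have : 0 ≤ 2 * Real.pi * (T / 2) ^ 2 * ‖ξ - ζ‖ ^ 2 := by positivity
        linarith
      · filter_upwards [hg] with ξ hξ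
        by_cases h : 1 < ‖ξ‖
        · simp [hξ h]
        · rw [← mul_assoc, ← Real.exp_add]
          gcongr
          have h4 : 1 ≤ ‖ξ - ζ‖ := by
            have := norm_sub_norm_le ζ ξ
            rw [norm_sub_rev] at this
            linarith
          have h5 : 1 ≤ ‖ξ - ζ‖ ^ 2 := one_le_pow₀ h4
          have h6 : T ≤ T ^ 2 * ‖ξ - ζ‖ ^ 2 := by nlinarith
          nlinarith
    rw [e2]
    calc _ ≤ 2 ^ d * (2 * (T / 2) ^ 2) ^ ((d : ℝ) / 2) * (Real.exp (-T) *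
          ∫ ξ, Real.exp (-2 * Real.pi * (T / 2) ^ 2 * ‖ξ - ζ‖ ^ 2) * ‖g ξ‖ ^ 2) := by gcongr
      _ = _ := by ring
  · have e : ∀ y : V d, ({β : Ph d | 2 < ‖β.2‖}).indicator (fun β => ‖co T 0 g β‖ ^ 2) (y, ζ) =
        0 := fun y => indicator_of_notMem (by exact hζ) _
    simp only [e, integral_zero]
    exact mul_nonneg (by positivity) (integral_nonneg fun _ => by positivity)

lemma inner_pt_sq_le (z : V d × ℝ) (g : L2 d) : ‖inner ℂ (pt z) g‖ ^ 2 ≤ ‖g‖ ^ 2 := by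
  have := norm_inner_le_norm (𝕜 := ℂ) (pt z) g
  rw [pt, norm_gam one_pos, one_mul] at this
  exact pow_le_pow_left₀ (norm_nonneg _) this 2

lemma en_add_three {ι : Type*} {X : Finset ι} {p : ι → V d × ℝ} {w : ι → ℝ}
    (hw : ∀ i ∈ X, 0 ≤ w i) (a b c : L2 d) :
    En X p w (fun _ => a + b + c) ≤
      3 * (En X p w (fun _ => a) + En X p w (fun _ => b) + En X p w (fun _ => c)) := by
  unfold En
  rw [← Finset.sum_add_distrib, ← Finset.sum_add_distrib, Finset.mul_sum]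
  refine Finset.sum_le_sum fun i hi => ?_
  rw [inner_add_right, inner_add_right]
  set x := inner ℂ (pt (p i)) a
  set y := inner ℂ (pt (p i)) b
  set z := inner ℂ (pt (p i)) c
  have h1 : ‖x + y + z‖ ≤ ‖x‖ + ‖y‖ + ‖z‖ := norm_add₃_le
  have h2 : ‖x + y + z‖ ^ 2 ≤ 3 * (‖x‖ ^ 2 + ‖y‖ ^ 2 + ‖z‖ ^ 2) := by
    refine (pow_le_pow_left₀ (norm_nonneg _) h1 2).trans ?_
    nlinarith [sq_nonneg (‖x‖ - ‖y‖), sq_nonneg (‖y‖ - ‖z‖), sq_nonneg (‖x‖ - ‖z‖)]
  nlinarith [hw i hi]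

lemma en_le_card {ι : Type*} {X : Finset ι} {p : ι → V d × ℝ} {w : ι → ℝ}
    (hw : ∀ i ∈ X, w i ≤ 1) (g : L2 d) : En X p w (fun _ => g) ≤ X.card * ‖g‖ ^ 2 := by
  unfold En
  calc _ ≤ ∑ _i ∈ X, ‖g‖ ^ 2 := Finset.sum_le_sum fun i hi => by
        have := inner_pt_sq_le (p i) g
        nlinarith [hw i hi, sq_nonneg ‖inner ℂ (pt (p i)) g‖]
    _ = _ := by simp

/-- the integrand of the main term -/
noncomputable def itg (Z : ℤ → ℤ → Finset (V (d + 1) × ℝ)) (r c₀ Lp L T : ℝ)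
    (g : ℝ → ℝ → L2 d) (k : ℤ) (y : ℝ) (β : Ph d) : ℝ :=
  xray (vv (Z k ⌊y / r⌋) pr (ww r c₀ ⌊y / r⌋) Lp) ((k - 1) * L) ((k + 2) * L) β *
    ‖co T 0 (g (k * L) y) β‖ ^ 2

lemma measurable_floor_comp {β : Type*} [MeasurableSpace β] (F : ℤ → β → ℝ)
    (hF : ∀ m, Measurable (F m)) (r : ℝ) : Measurable fun q : ℝ × β => F ⌊q.1 / r⌋ q.2 := by
  have h1 : Measurable fun q : ℤ × β => F q.1 q.2 := measurable_from_prod_countable_right hF
  have h0 : Measurable fun q : ℝ × β => ((⌊q.1 / r⌋ : ℤ), q.2) :=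
    ((measurable_fst.div_const r).floor).prodMk measurable_snd
  exact h1.comp h0

lemma continuous_co_comp {T : ℝ} (hT : 0 < T) {g : ℝ → L2 d} (hg : Continuous g) :
    Continuous fun q : ℝ × Ph d => co T 0 (g q.1) q.2 := by
  have h4 : Continuous fun β : Ph d => ((0 : ℝ), β) := by fun_prop
  have h3 : Continuous fun β : Ph d => gam T 0 β := by
    have := (continuous_gam (d := d) hT).comp h4
    simpa only [Function.comp_def] using this
  have h5 : Continuous fun q : ℝ × Ph d => gam T 0 q.2 := h3.comp continuous_snd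
  have h6 : Continuous fun q : ℝ × Ph d => g q.1 := hg.comp continuous_fst
  exact h5.inner h6

lemma measurable_itg (Z : ℤ → ℤ → Finset (V (d + 1) × ℝ)) (r c₀ Lp L : ℝ) {T : ℝ} (hT : 0 < T)
    {g : ℝ → ℝ → L2 d} (hg : ∀ t, Continuous (g t)) (k : ℤ) :
    Measurable fun q : ℝ × Ph d => ENNReal.ofReal (itg Z r c₀ Lp L T g k q.1 q.2) := by
  have h1 := measurable_floor_comp (fun (m : ℤ) (β : Ph d) =>
    xray (vv (Z k m) pr (ww r c₀ m) Lp) ((k - 1) * L) ((k + 2) * L) β)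
    (fun m => (continuous_xray (continuous_vv (Z k m) pr (ww r c₀ m) Lp)
        ((k - 1) * L) ((k + 2) * L)).measurable) r
  have h2 := ((continuous_co_comp hT (hg (k * L))).norm.pow 2).measurable
  exact (h1.mul h2).ennreal_ofReal

/-- summation of the main terms by `St` -/
lemma st_sum (d : ℕ) (hd : 1 ≤ d) : ∃ C : ℝ, 0 ≤ C ∧ ∀ (X : Finset (V (d + 1) × ℝ)) (A R L r Lp T c₀ E : ℝ)
    (D : ℕ) (K : Finset ℤ) (Z : ℤ → ℤ → Finset (V (d + 1) × ℝ)) (g : ℝ → ℝ → L2 d)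
    (cc : Ph d → ℝ → ℂ) (𝓡 : Set (Ph d)) (μ₀ : ℝ),
    (∀ (E : Finset (V (d + 1) × ℝ)) (a : ℝ) (u : V d × ℝ), E ⊆ X →
      (∀ z ∈ E, a ≤ yc c₀ z ∧ yc c₀ z ≤ a + Lp) → dens E pr (fun _ => 1) Lp u ≤ A) →
    0 ≤ A → 0 < r → 0 < L → L ≤ R → 0 < T → r + R / r + (2 * D + 2) * r ≤ Lp →
    (∀ k ∈ K, |(k : ℝ) * L| ≤ 2 * R) → (∀ k m, Z k m ⊆ X) →
    (∀ k m, ∀ z ∈ Z k m, |mi r c₀ z - m| ≤ D) → (∀ t, Continuous (g t)) →
    (∀ t y β, co T 0 (g t y) β = U1 t (cc β) y) → (∀ β, MemLp (cc β) 2 volume) →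
    (∀ β η, 1 / r < |η| → cc β η = 0) → Measurable (fun β => ∫ η, ‖cc β η‖ ^ 2) →
    ∫⁻ β, ENNReal.ofReal (∫ η, ‖cc β η‖ ^ 2) ≤ ENNReal.ofReal E → MeasurableSet 𝓡 →
    (∀ β ∈ 𝓡, xray (cm X pr Lp A) (-(4 * R)) (4 * R) β / R ≤ μ₀) →
    ∑ k ∈ K, ∫⁻ y, ∫⁻ β in 𝓡, ENNReal.ofReal (itg Z r c₀ Lp L T g k y β) ≤
      ENNReal.ofReal (C * (R ^ (((d : ℝ) + 1) / (d + 2)) * (A * μ₀) ^ (1 / ((d : ℝ) + 2))
        + L * (A / r) ^ (2 / ((d : ℝ) + 2))) * E) := by
  set q : ℝ := ((d : ℝ) + 2) / 2 with hq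
  have hd1 : (1 : ℝ) ≤ d := by exact_mod_cast hd
  have hq1 : 1 < q := by rw [hq]; linarith
  obtain ⟨C, hC, hst⟩ := st q hq1
  set a : ℝ := 3 ^ (q + 1) with ha
  have ha1 : 1 ≤ a := Real.one_le_rpow (by norm_num) (by linarith)
  have ha3 : a = 3 ^ q * 3 := by rw [ha, Real.rpow_add (by norm_num), Real.rpow_one]
  refine ⟨C * a, by positivity, ?_⟩
  intro X A R L r Lp T c₀ E D K Z g cc 𝓡 μ₀ hA hA0 hr hL hLR hT hLp hK hZ hZm hg hco hcc hsupp
    hmeas hE h𝓡 hμ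
  have hR : 0 < R := by linarith
  have hl : 0 < r + R / r := by positivity
  have hLp0 : 0 < Lp := by
    have : 0 < (2 * (D : ℝ) + 2) * r := by positivity
    linarith
  set G : ℝ := C * a * (R ^ (((d : ℝ) + 1) / (d + 2)) * (A * μ₀) ^ (1 / ((d : ℝ) + 2))
    + L * (A / r) ^ (2 / ((d : ℝ) + 2))) with hG
  have key : ∀ β ∈ 𝓡, ∑ k ∈ K, ∫⁻ y, ENNReal.ofReal (itg Z r c₀ Lp L T g k y β) ≤
      ENNReal.ofReal G * ENNReal.ofReal (∫ η, ‖cc β η‖ ^ 2) := by
    intro β hβ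
    have hw : ∀ k : ℤ, ((k : ℝ) + 2) * L = (k - 1) * L + 3 * L := fun k => by ring
    have hcm0 := cm_nonneg X pr hLp0 hA0
    have hx0 : ∀ k : ℤ, 0 ≤ xray (cm X pr Lp A) ((k - 1) * L) ((k + 2) * L) β := fun k =>
      xray_nonneg hcm0 (by nlinarith) β
    have h1 := hst R L r (r + R / r) (a * A) hL hLR hr le_rfl (by positivity) K hK
      (fun k y => xray (vv (Z k ⌊y / r⌋) pr (ww r c₀ ⌊y / r⌋) Lp) ((k - 1) * L) ((k + 2) * L) β / L)
      (fun k => 3 ^ q * (xray (cm X pr Lp A) ((k - 1) * L) ((k + 2) * L) β / L))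
      (fun k => ((measurable_from_top (f := fun m : ℤ =>
        xray (vv (Z k m) pr (ww r c₀ m) Lp) ((k - 1) * L) ((k + 2) * L) β / L)).comp
        (measurable_id.div_const r).floor))
      (fun k y => div_nonneg (xray_nonneg (fun u => Real.rpow_nonneg
        (dens_nonneg _ pr (fun z _ => ww_nonneg hr c₀ _ z) hLp0 u) _) (by nlinarith) β) hL.le)
      (fun k _ => ⟨mul_nonneg (by positivity) (div_nonneg (hx0 k) hL.le), by
        have := xray_le (continuous_cm X pr Lp A) (fun u => min_le_left _ _)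
          (a := (k - 1) * L) (b := (k + 2) * L) (by nlinarith) β
        rw [ha3, mul_assoc]
        gcongr
        rw [div_le_iff₀ hL]; nlinarith⟩)
      (fun k _ y₀ => by
        simp only [hw k]
        exact col_bound hA hr hl.le hL hLp (Z k) (hZ k) (hZm k) _ β y₀)
      (cc β) (hcc β) (hsupp β)
    have h2 : L / R * ∑ k ∈ K, 3 ^ q * (xray (cm X pr Lp A) ((k - 1) * L) ((k + 2) * L) β / L) ≤
        a * μ₀ := by
      have h3 := sum_windows_le (continuous_line' (continuous_cm X pr Lp A) β)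
        (fun s => hcm0 _) hL hLR K hK
      calc _ = 3 ^ q * ((∑ k ∈ K, xray (cm X pr Lp A) ((k - 1) * L) ((k + 2) * L) β) / R) := by
            rw [← Finset.mul_sum, ← Finset.sum_div]; field_simp
        _ ≤ 3 ^ q * ((3 * xray (cm X pr Lp A) (-(4 * R)) (4 * R) β) / R) := by
            gcongr; exact h3
        _ = a * (xray (cm X pr Lp A) (-(4 * R)) (4 * R) β / R) := by rw [ha3]; ring
        _ ≤ _ := by gcongr; exact hμ β hβ
    have hμ0 : 0 ≤ μ₀ := le_trans (div_nonneg (xray_nonneg hcm0 (by linarith) β) hR.le) (hμ β hβ)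
    have e1 : 1 - 1 / (2 * q) = ((d : ℝ) + 1) / (d + 2) := by rw [hq]; field_simp; ring
    have e2 : 1 / (2 * q) = 1 / ((d : ℝ) + 2) := by rw [hq]; field_simp
    have e3 : 1 / q = 2 / ((d : ℝ) + 2) := by rw [hq]; field_simp
    rw [e1, e2, e3] at h1
    rw [← ENNReal.ofReal_mul (by positivity)]
    refine le_trans (le_of_eq ?_) (h1.trans (ENNReal.ofReal_le_ofReal ?_))
    · refine Finset.sum_congr rfl fun k _ => lintegral_congr fun y => ?_
      rw [itg, hco]; congr 1; field_simp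
    · refine mul_le_mul_of_nonneg_right ?_ (integral_nonneg fun _ => by positivity)
      rw [hG, mul_assoc C]
      refine mul_le_mul_of_nonneg_left ?_ hC
      have h4 : (a * A * (L / R * ∑ k ∈ K,
          3 ^ q * (xray (cm X pr Lp A) ((k - 1) * L) ((k + 2) * L) β / L))) ^ (1 / ((d : ℝ) + 2)) ≤
          a * (A * μ₀) ^ (1 / ((d : ℝ) + 2)) := by
        calc _ ≤ (a ^ (2 : ℝ) * (A * μ₀)) ^ (1 / ((d : ℝ) + 2)) := by
              refine Real.rpow_le_rpow (mul_nonneg (by positivity) (mul_nonneg (by positivity)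
                (Finset.sum_nonneg fun k _ => mul_nonneg (by positivity)
                  (div_nonneg (hx0 k) hL.le)))) ?_ (by positivity)
              rw [Real.rpow_two]
              calc _ ≤ a * A * (a * μ₀) := by gcongr
                _ = _ := by ring
          _ = a ^ (2 * (1 / ((d : ℝ) + 2))) * (A * μ₀) ^ (1 / ((d : ℝ) + 2)) := by
              rw [Real.mul_rpow (by positivity) (by positivity), ← Real.rpow_mul (by positivity)]
          _ ≤ a ^ (1 : ℝ) * (A * μ₀) ^ (1 / ((d : ℝ) + 2)) := by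
              gcongr
              rw [mul_one_div, div_le_one (by positivity)]; linarith
          _ = _ := by rw [Real.rpow_one]
      have h5 : (a * A / r) ^ (2 / ((d : ℝ) + 2)) ≤ a * (A / r) ^ (2 / ((d : ℝ) + 2)) := by
        rw [mul_div_assoc, Real.mul_rpow (by positivity) (by positivity)]
        gcongr
        calc a ^ (2 / ((d : ℝ) + 2)) ≤ a ^ (1 : ℝ) := by
              gcongr
              rw [div_le_one (by positivity)]; linarith
          _ = _ := Real.rpow_one _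
      calc _ ≤ R ^ (((d : ℝ) + 1) / (d + 2)) * (a * (A * μ₀) ^ (1 / ((d : ℝ) + 2))) +
            L * (a * (A / r) ^ (2 / ((d : ℝ) + 2))) := by gcongr
        _ = _ := by ring
  have hm := measurable_itg Z r c₀ Lp L hT hg
  calc _ = ∑ k ∈ K, ∫⁻ β in 𝓡, ∫⁻ y, ENNReal.ofReal (itg Z r c₀ Lp L T g k y β) :=
        Finset.sum_congr rfl fun k _ => lintegral_lintegral_swap (hm k).aemeasurable
    _ ≤ ∫⁻ β in 𝓡, ∑ k ∈ K, ∫⁻ y, ENNReal.ofReal (itg Z r c₀ Lp L T g k y β) :=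
        sum_lintegral_le _ _ _
    _ ≤ ∫⁻ β in 𝓡, ENNReal.ofReal G * ENNReal.ofReal (∫ η, ‖cc β η‖ ^ 2) :=
        setLIntegral_mono' h𝓡 key
    _ ≤ ENNReal.ofReal G * ENNReal.ofReal E := by
        rw [lintegral_const_mul _ hmeas.ennreal_ofReal]
        gcongr
        exact (setLIntegral_le_lintegral _ _).trans hE
    _ ≤ _ := by
        by_cases h : 0 ≤ G
        · rw [ENNReal.ofReal_mul h]
        · rw [ENNReal.ofReal_of_nonpos (not_le.1 h).le]; simp

end Crest.Agent.N76.II.B
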