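import Crest.Agent.N76.II.B.Geo

/-! # Row 76, part II B: the removed sets are covered by few balls (helper8). -/

set_option autoImplicit false

open MeasureTheory Set Metric
open scoped ENNReal RealInnerProductSpace

namespace Crest.Agent.N76.II.B

open Crest.Agent.N76.Red (V ph)
open Crest.Agent.N76.G

variable {d : ℕ}

lemma prd_ge_one (d : ℕ) (R r : ℝ) : 1 ≤ prd d R r := le_max_left _ _

lemma ssc_pos (n : ℕ) {R : ℝ} (hR : 0 < R) : 0 < Ssc n R := Real.rpow_pos_of_pos hR _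

lemma prof_eq_mul (d : ℕ) (R : ℝ) {r : ℝ} (hr : 0 ≤ r) : prof (d + 1) R r = r * prd d R r := by
  unfold prof prd
  rw [mul_max_of_nonneg _ _ hr, mul_max_of_nonneg _ _ hr, Nat.add_sub_cancel, div_pow]
  congr 2
  · ring
  · ring
  · ring

lemma prd_le_mul (d : ℕ) {R r r' l : ℝ} (hR : 0 < R) (hr : 0 ≤ r) (hr' : 0 ≤ r') (hl : 1 ≤ l)
    (h : r ≤ l * r') : prd d R r ≤ l ^ (d + 1) * prd d R r' := by
  have hS := ssc_pos (d + 1) hR
  have h1 : 1 ≤ l ^ (d + 1) := one_le_pow₀ hl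
  have h2 : l ^ d ≤ l ^ (d + 1) := pow_le_pow_right₀ hl (by omega)
  unfold prd
  rw [mul_max_of_nonneg _ _ (by linarith), mul_max_of_nonneg _ _ (by linarith)]
  refine max_le_max (by linarith) (max_le_max ?_ ?_)
  · calc _ ≤ (l * r' / Ssc (d + 1) R) ^ d := by gcongr
      _ = l ^ d * (r' / Ssc (d + 1) R) ^ d := by rw [mul_div_assoc, mul_pow]
      _ ≤ _ := by gcongr
  · calc _ ≤ (l * r') ^ (d + 1) / √R := by gcongr
      _ = _ := by rw [mul_pow, mul_div_assoc]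

lemma yc_near {r c₀ : ℝ} (hr : 0 < r) {D : ℕ} {m : ℤ} {z : V (d + 1) × ℝ}
    (h : |mi r c₀ z - m| ≤ D) :
    ((m : ℝ) - D) * r ≤ yc c₀ z ∧ yc c₀ z ≤ ((m : ℝ) - D) * r + (2 * D + 1) * r := by
  obtain ⟨h1, h2⟩ := abs_le.1 h
  obtain ⟨h3, h4⟩ := mi_bounds hr c₀ z
  have h5 : (m : ℝ) - D ≤ mi r c₀ z := by exact_mod_cast (by omega : m - D ≤ mi r c₀ z)
  have h6 : (mi r c₀ z : ℝ) ≤ m + D := by exact_mod_cast (by omega : mi r c₀ z ≤ m + D)
  constructor <;> nlinarith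

open Classical in
/-- the centres of heavy balls -/
noncomputable def bad (X : Finset (V (d + 1) × ℝ)) (r c₀ : ℝ) (D : ℕ) (θ ρ : ℝ) :
    Finset (V (d + 1) × ℝ) :=
  X.filter fun z => ∃ m : ℤ, |mi r c₀ z - m| ≤ D ∧ θ < ms X pr (ww r c₀ m) (closedBall (pr z) ρ)

lemma bad_subset (X : Finset (V (d + 1) × ℝ)) (r c₀ : ℝ) (D : ℕ) (θ ρ : ℝ) :
    bad X r c₀ D θ ρ ⊆ X := by
  classical
  exact Finset.filter_subset _ _

lemma cov_bad (X : Finset (V (d + 1) × ℝ)) {r c₀ θ ρ : ℝ} (D : ℕ) (hc : |c₀| ≤ 2) (hr : 0 < r)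
    (hρ : 0 < ρ) (hρr : ρ ≤ 4 * r) (hθ : 0 < θ) :
    Cov (bad X r c₀ D θ ρ) id (12 * ρ) (X.card * (D + 5) / (θ * ρ)) := by
  classical
  set s := X.biUnion fun z => Finset.Icc (mi r c₀ z - D) (mi r c₀ z + D) with hs
  have h := cov_biUnion (p := id) s (X := bad X r c₀ D θ ρ) (r := 6 * (2 * ρ))
    (fun m => (X.filter fun z => θ < ms X pr (ww r c₀ m) (closedBall (pr z) ρ)).filter
      fun z => |mi r c₀ z - m| ≤ D)
    (fun m => (∑ z ∈ X, ww r c₀ m z) / θ * ((2 * D + 1) * r / (2 * ρ) + 1))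
    (fun m _ => cov_lift hc (by linarith) (by positivity)
      (cov_mono (cov_heavy X (fun z _ => ww_nonneg hr c₀ m z) hρ.le hθ) (Finset.filter_subset _ _)
        le_rfl le_rfl) fun z hz => yc_near hr (Finset.mem_filter.1 hz).2)
    fun z hz => by
      obtain ⟨h1, m, h2, h3⟩ := Finset.mem_filter.1 hz
      obtain ⟨h4, h5⟩ := abs_le.1 h2
      exact ⟨m, Finset.mem_biUnion.2 ⟨z, h1, Finset.mem_Icc.2 ⟨by omega, by omega⟩⟩,
        Finset.mem_filter.2 ⟨Finset.mem_filter.2 ⟨h1, h3⟩, h2⟩⟩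
  refine cov_mono h subset_rfl (by linarith) ?_
  rw [← Finset.sum_mul, ← Finset.sum_div, Finset.sum_comm]
  have h1 : ∑ z ∈ X, ∑ m ∈ s, ww r c₀ m z ≤ X.card * (1 / r) := by
    calc _ ≤ ∑ _z ∈ X, 1 / r := Finset.sum_le_sum fun z _ => sum_ww_le hr c₀ s z
      _ = _ := by simp
  have h2 : (2 * D + 1) * r / (2 * ρ) + 1 ≤ (D + 5) * r / ρ := by
    rw [div_add_one (by positivity), div_le_div_iff₀ (by positivity) hρ]
    nlinarith [mul_le_mul_of_nonneg_right hρr hρ.le, mul_pos hr hρ]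
  calc _ ≤ X.card * (1 / r) / θ * ((D + 5) * r / ρ) := by gcongr
    _ = _ := by field_simp

lemma ms_small {R : ℝ} {X Z : Finset (V (d + 1) × ℝ)} (hX : Graph R X) (hZ : Z ⊆ X) {c₀ r ρ : ℝ}
    (hc : |c₀| ≤ 2) (hρ : 1 ≤ ρ) (hρr : ρ ≤ r) (m : ℤ) (u : V d × ℝ) :
    ms Z pr (ww r c₀ m) (closedBall u ρ) ≤ ρ ^ d := by
  have hr : 0 < r := by linarith
  refine (ms_mono (fun z _ => ww_nonneg hr c₀ m z) hZ fun _ _ h => h).trans
    ((ms_ww_le hX hc hr hρ m u).trans ?_)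
  have h1 : 1 ≤ r / ρ := by rw [le_div_iff₀ (by linarith)]; linarith
  calc _ ≤ (r / ρ + r / ρ) / 2 * ρ ^ (d + 1) / r := by gcongr
    _ = _ := by field_simp; ring

lemma ms_reg {R B : ℝ} {X Z : Finset (V (d + 1) × ℝ)} (hX : Graph R X) (hZ : Z ⊆ X) {c₀ r : ℝ}
    {D : ℕ} {m : ℤ} (hc : |c₀| ≤ 2) (hR : 0 < R) (hr : 0 < r) (hB : √R ≤ B * r)
    (hm : ∀ z ∈ Z, |mi r c₀ z - m| ≤ D)
    (hreg : ∀ z ∈ Z, ∀ j : ℕ, (2 : ℝ) ^ j ≤ 4 * r →
      z ∉ bad X r c₀ D (B * prd d R (2 ^ j) / 4 ^ (d + 1)) (2 ^ j))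
    (u : V d × ℝ) {ρ : ℝ} (hρ : 1 ≤ ρ) :
    ms Z pr (ww r c₀ m) (closedBall u ρ) ≤ B * prd d R ρ := by
  classical
  have hT : 0 < √R := Real.sqrt_pos.2 hR
  have hB0 : 0 < B := by by_contra h; nlinarith [not_lt.1 h]
  have hw : ∀ z ∈ X, 0 ≤ ww r c₀ m z := fun z _ => ww_nonneg hr c₀ m z
  have h1 := prd_ge_one d R ρ
  rcases le_or_gt r ρ with h | h
  · refine (ms_mono hw hZ fun _ _ h => h).trans ((ms_ww_le hX hc hr hρ m u).trans ?_)
    have h2 : r / ρ ≤ 1 := by rw [div_le_one (by linarith)]; exact h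
    calc _ ≤ (1 + 1) / 2 * ρ ^ (d + 1) / r := by gcongr
      _ = B * (ρ ^ (d + 1) / (B * r)) := by field_simp; ring
      _ ≤ B * (ρ ^ (d + 1) / √R) := by gcongr
      _ ≤ _ := by
          gcongr
          exact (le_max_right _ _).trans (le_max_right _ _)
  · by_cases hne : ∃ z ∈ Z, pr z ∈ closedBall u ρ
    · obtain ⟨z, hz, hzu⟩ := hne
      obtain ⟨n, hn1, hn2⟩ := exists_nat_pow_near (x := 2 * ρ) (y := (2 : ℝ)) (by linarith)
        (by norm_num)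
      have h4 : (2 : ℝ) ^ (n + 1) ≤ 4 * ρ := by rw [pow_succ]; linarith
      have h5 := hreg z hz (n + 1) (by linarith)
      have h6 : ms X pr (ww r c₀ m) (closedBall (pr z) (2 ^ (n + 1))) ≤
          B * prd d R (2 ^ (n + 1)) / 4 ^ (d + 1) := by
        by_contra hcon
        exact h5 (Finset.mem_filter.2 ⟨hZ hz, m, hm z hz, not_le.1 hcon⟩)
      refine (ms_mono hw hZ fun y _ hy => ?_).trans (h6.trans ?_)
      · rw [mem_closedBall] at hy hzu ⊢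
        linarith [dist_triangle_right (pr y) (pr z) u]
      · rw [div_le_iff₀ (by positivity), mul_assoc, mul_comm (prd d R ρ)]
        exact mul_le_mul_of_nonneg_left
          (prd_le_mul d hR (by positivity) (by linarith) (by norm_num) h4) hB0.le
    · have : ms Z pr (ww r c₀ m) (closedBall u ρ) = 0 := by
        unfold ms
        rw [Finset.filter_eq_empty_iff.2 fun z hz h => hne ⟨z, hz, h⟩, Finset.sum_empty]
      rw [this]; positivity

lemma cov_exc {Y : Finset (V (d + 1) × ℝ)} (K Ms : Finset ℤ)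
    (E : ℤ → ℤ → Finset (V (d + 1) × ℝ)) {r c₀ ρ T N : ℝ} {D : ℕ} (hc : |c₀| ≤ 2) (hr : 0 < r)
    (hρ : 0 < ρ) (hρT : ρ ≤ T) (hD : (2 * D + 1) * r ≤ 3 * T) (hN : 0 ≤ N)
    (hE : ∀ k m, Cov (E k m) pr ρ N)
    (hY : ∀ z ∈ Y, ∃ k ∈ K, ∃ m ∈ Ms, |mi r c₀ z - m| ≤ D ∧ z ∈ E k m) :
    Cov Y id (6 * ρ) (K.card * Ms.card * (N * (4 * T / ρ))) := by
  classical
  have h := cov_biUnion (p := id) (K ×ˢ Ms) (X := Y) (r := 6 * ρ)
    (fun q => (E q.1 q.2).filter fun z => |mi r c₀ z - q.2| ≤ D)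
    (fun _ => N * ((2 * D + 1) * r / ρ + 1))
    (fun q _ => cov_lift hc hρ (by positivity)
      (cov_mono (hE q.1 q.2) (Finset.filter_subset _ _) le_rfl le_rfl)
      fun z hz => yc_near hr (Finset.mem_filter.1 hz).2)
    fun z hz => by
      obtain ⟨k, hk, m, hm, h1, h2⟩ := hY z hz
      exact ⟨(k, m), Finset.mem_product.2 ⟨hk, hm⟩, Finset.mem_filter.2 ⟨h2, h1⟩⟩
  refine cov_mono h subset_rfl le_rfl ?_
  rw [Finset.sum_const, nsmul_eq_mul, Finset.card_product]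
  push_cast
  have : (2 * D + 1) * r / ρ + 1 ≤ 4 * T / ρ := by
    rw [div_add_one hρ.ne']; gcongr; linarith
  gcongr

/-- the relevant slices -/
lemma exists_slices (Y : Finset ℝ) {r u : ℝ} (D : ℕ) (hr : 0 < r) (hu : 1 ≤ u) (hD : (D : ℝ) ≤ u)
    (hY : (Y.card : ℝ) ≤ u) (c₀ : ℝ) : ∃ Ms : Finset ℤ, (Ms.card : ℝ) ≤ 9 * u ^ 3 ∧
      ∀ (z : V (d + 1) × ℝ) (m : ℤ), (∃ y ∈ Y, |yc c₀ z - y| ≤ u ^ 2 * r) →
        |mi r c₀ z - m| ≤ D → m ∈ Ms := by
  classical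
  set Q : ℕ := ⌈u ^ 2⌉₊ + 1 + D with hQ
  refine ⟨Y.biUnion fun y => Finset.Icc (⌊y / r⌋ - Q) (⌊y / r⌋ + Q), ?_, ?_⟩
  · have h1 : (Q : ℝ) ≤ u ^ 2 + 2 + u := by
      rw [hQ]; push_cast
      linarith [Nat.ceil_lt_add_one (by positivity : 0 ≤ u ^ 2)]
    calc _ ≤ ((∑ y ∈ Y, (Finset.Icc (⌊y / r⌋ - Q) (⌊y / r⌋ + Q)).card : ℕ) : ℝ) := by
          exact_mod_cast Finset.card_biUnion_le
      _ = Y.card * (2 * Q + 1) := by
          have : ∀ y ∈ Y, (Finset.Icc (⌊y / r⌋ - Q) (⌊y / r⌋ + Q)).card = 2 * Q + 1 := by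
            intro y _; rw [Int.card_Icc]; omega
          rw [Finset.sum_congr rfl this]; simp
      _ ≤ u * (9 * u ^ 2) := by gcongr; nlinarith
      _ = _ := by ring
  · rintro z m ⟨y, hy, hzy⟩ hm
    refine Finset.mem_biUnion.2 ⟨y, hy, ?_⟩
    obtain ⟨h1, h2⟩ := abs_le.1 hzy
    obtain ⟨h3, h4⟩ := abs_le.1 hm
    have h5 := Nat.le_ceil (u ^ 2)
    have h6 : mi r c₀ z ≤ ⌊y / r⌋ + ⌈u ^ 2⌉₊ := by
      rw [mi, ← Int.floor_add_natCast]
      refine Int.floor_mono ?_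
      rw [div_le_iff₀ hr, add_mul, div_mul_cancel₀ _ hr.ne']; nlinarith
    have h7 : ⌊y / r⌋ ≤ mi r c₀ z + ⌈u ^ 2⌉₊ := by
      rw [mi, ← Int.floor_add_natCast]
      refine Int.floor_mono ?_
      rw [div_le_iff₀ hr, add_mul, div_mul_cancel₀ _ hr.ne']; nlinarith
    exact Finset.mem_Icc.2 ⟨by omega, by omega⟩

lemma en_le_of_cover {n : ℕ} {X Xs : Finset (V n × ℝ)} (J : ℕ) (E F : ℕ → Finset (V n × ℝ))
    (H : L2 n) (h : ∀ z ∈ X, z ∈ Xs ∨ ∃ j < J, z ∈ E j ∨ z ∈ F j) {b : ℝ}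
    (hE : ∀ j < J, En (E j) id (fun _ => 1) (fun _ => H) ≤ b)
    (hF : ∀ j < J, En (F j) id (fun _ => 1) (fun _ => H) ≤ b) :
    En X id (fun _ => 1) (fun _ => H) ≤ En Xs id (fun _ => 1) (fun _ => H) + 2 * J * b := by
  classical
  have key : ∀ (s t : Finset (V n × ℝ)), En (s ∪ t) id (fun _ => 1) (fun _ => H) ≤
      En s id (fun _ => 1) (fun _ => H) + En t id (fun _ => 1) (fun _ => H) := by
    intro s t
    unfold En
    rw [← Finset.sum_union_inter]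
    exact le_add_of_nonneg_right (Finset.sum_nonneg fun _ _ => by positivity)
  have h2 : ∀ I ≤ J, En ((Finset.range I).biUnion fun j => E j ∪ F j) id (fun _ => 1)
      (fun _ => H) ≤ 2 * I * b := by
    intro I
    induction I with
    | zero => intro _; simp [En]
    | succ I ih =>
      intro hI
      rw [Finset.range_add_one, Finset.biUnion_insert]
      refine (key _ _).trans ?_
      have := key (E I) (F I)
      have := hE I (by omega)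
      have := hF I (by omega)
      have := ih (by omega)
      push_cast; linarith
  refine le_trans ?_ ((key Xs _).trans (add_le_add le_rfl (h2 J le_rfl)))
  unfold En
  refine Finset.sum_le_sum_of_subset_of_nonneg (fun z hz => ?_) fun _ _ _ => by positivity
  rcases h z hz with h1 | ⟨j, hj, h1⟩
  · exact Finset.mem_union_left _ h1
  · exact Finset.mem_union_right _ (Finset.mem_biUnion.2
      ⟨j, Finset.mem_range.2 hj, Finset.mem_union.2 h1⟩)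

end Crest.Agent.N76.II.B
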