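import Crest.Agent.N76.II.B.Top
import Crest.Agent.N76.II.B.Rem

/-! # Row 76, part II B+D: `TII ⇐ TI1 + LP` (helper8). -/

set_option autoImplicit false

open MeasureTheory Set Metric Filter
open scoped ENNReal RealInnerProductSpace

namespace Crest.Agent.N76.II.B

open Crest.Agent.N76.Red (V ph)
open Crest.Agent.N76.G

variable {d : ℕ}

lemma win_bounds {b : ℕ} (hb : 1 ≤ b) (M : ℕ) (t : ℝ) :
    (win b M t : ℝ) * (b : ℝ) ^ (2 * M) ≤ t ∧
      t ≤ (win b M t : ℝ) * (b : ℝ) ^ (2 * M) + (b : ℝ) ^ (2 * M) := by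
  have hL : (0 : ℝ) < (b : ℝ) ^ (2 * M) := by positivity
  constructor
  · rw [← le_div_iff₀ hL]; exact Int.floor_le _
  · have : t / (b : ℝ) ^ (2 * M) < win b M t + 1 := Int.lt_floor_add_one _
    rw [div_lt_iff₀ hL] at this
    linarith

open Classical in
/-- removal of the irregular and of the exceptional points -/
lemma exists_regular {R B u G r c₀ c Cp b₁ : ℝ} {b M D J : ℕ} {X : Finset (V (d + 1) × ℝ)}
    {Y : Finset ℝ} {H : L2 (d + 1)} (hX : Graph R X) (hc₀ : |c₀| ≤ 2) (hR : 1 ≤ R) (hb : 1 ≤ b)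
    (hLR : (b : ℝ) ^ (2 * M) ≤ R) (hu : 48 ≤ u) (hr : r * u = √R) (hSr : Ssc (d + 1) R ≤ r)
    (hD : (D : ℝ) ≤ u) (huB : u ≤ B) (hG : 0 < G) (hG1 : 180 * 144 ^ (d + 2) * u ^ 3 * G ≤ B)
    (hJ : ∀ j : ℕ, (2 : ℝ) ^ j ≤ R → j < J) (hY : (Y.card : ℝ) ≤ u)
    (hXY : ∀ z ∈ X, ∃ y ∈ Y, |yc c₀ z - y| ≤ u * √R)
    (hTI : ∀ E ⊆ X, ∀ ρ, 1 ≤ ρ → ρ ≤ √R → Cov E id ρ (R ^ (d + 1) / G / prof (d + 1) R ρ) →
      En E id (fun _ => 1) (fun _ => H) ≤ b₁)
    (hLP : ∀ (Z : Finset (V (d + 1) × ℝ)) (w : V (d + 1) × ℝ → ℝ) (k₀ : ℤ),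
      (∀ z ∈ Z, 0 ≤ w z) → (∀ z ∈ Z, pr z ∈ closedBall (0 : V d × ℝ) R) →
      (∀ z ∈ Z, win b M (pr z).2 = k₀) →
      (∀ v ρ, 1 ≤ ρ → ρ ≤ Ssc (d + 1) R → ms Z pr w (closedBall v ρ) ≤ ρ ^ d) →
      (∀ v ρ, 1 ≤ ρ → ms Z pr w (closedBall v ρ) ≤ B * prd d R ρ) →
      ∃ E : ℕ → Finset (V (d + 1) × ℝ),
        (∀ k, (E k).Nonempty → (2 : ℝ) ^ k ≤ √R / B) ∧
        (∀ k, Cov (E k) pr (2 ^ k) (R ^ d * (b : ℝ) ^ (2 * M) / (B * √R * prd d R (2 ^ k)))) ∧
        ∀ X' ⊆ Z, (∀ z ∈ X', ∀ k, z ∉ E k) → LPout Z X' pr w (√R) ((b : ℝ) ^ (2 * M) / B ^ 20)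
          ((b : ℝ) ^ (2 * M)) k₀ B c Cp (Cp * ((b : ℝ) ^ (2 * M) / (B * Ssc (d + 1) R ^ 2)))) :
    ∃ (Xs : Finset (V (d + 1) × ℝ)) (Z : ℤ → ℤ → Finset (V (d + 1) × ℝ)), Xs ⊆ X ∧
      (∀ k m, Z k m ⊆ X) ∧ (∀ k m, ∀ z ∈ Z k m, |mi r c₀ z - m| ≤ D) ∧
      (∀ k m, LPout (Z k m) ((Xs.filter fun z => win b M z.2 = k).filter
        fun z => |mi r c₀ z - m| ≤ D) pr (ww r c₀ m) (√R) ((b : ℝ) ^ (2 * M) / B ^ 20)
        ((b : ℝ) ^ (2 * M)) k B c Cp (Cp * ((b : ℝ) ^ (2 * M) / (B * Ssc (d + 1) R ^ 2)))) ∧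
      En X id (fun _ => 1) (fun _ => H) ≤ En Xs id (fun _ => 1) (fun _ => H) + 2 * J * b₁ := by
  have hR0 : 0 < R := by linarith
  have hT0 : 0 < √R := Real.sqrt_pos.2 hR0
  have hTR : √R ≤ R := Real.sqrt_le_self_iff.2 (Or.inr hR)
  have hu0 : 0 < u := by linarith
  have hB0 : 0 < B := by linarith
  have hr0 : 0 < r := by
    by_contra h
    nlinarith [not_lt.1 h]
  have hr48 : 48 * r ≤ √R := by nlinarith
  have hL0 : (0 : ℝ) < (b : ℝ) ^ (2 * M) := by positivity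
  obtain ⟨L, hL⟩ : ∃ L, L = (b : ℝ) ^ (2 * M) := ⟨_, rfl⟩
  have hwin := win_bounds hb M
  rw [← hL] at hLR hLP hL0 hwin ⊢
  set bd : ℕ → Finset (V (d + 1) × ℝ) := fun j =>
    if (2 : ℝ) ^ j ≤ 4 * r then bad X r c₀ D (B * prd d R (2 ^ j) / 4 ^ (d + 1)) (2 ^ j) else ∅
    with hbd
  set Xr := X.filter fun z => ∀ j, z ∉ bd j with hXr
  set Z : ℤ → ℤ → Finset (V (d + 1) × ℝ) := fun k m =>
    (Xr.filter fun z => win b M z.2 = k).filter fun z => |mi r c₀ z - m| ≤ D with hZ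
  have hZX : ∀ k m, Z k m ⊆ X := fun k m => (Finset.filter_subset _ _).trans
    ((Finset.filter_subset _ _).trans (Finset.filter_subset _ _))
  have hZm : ∀ k m, ∀ z ∈ Z k m, |mi r c₀ z - m| ≤ D := fun k m z hz =>
    (Finset.mem_filter.1 hz).2
  have hE := fun k m => hLP (Z k m) (ww r c₀ m) k (fun z _ => ww_nonneg hr0 c₀ m z)
    (fun z hz => by
      obtain ⟨h1, h2⟩ := hX.1 z (hZX k m hz)
      rw [mem_closedBall, Prod.dist_eq, max_le_iff]
      exact ⟨by simpa [pr] using (norm_tl_le _).trans h1, by simpa [pr] using h2⟩)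
    (fun z hz => (Finset.mem_filter.1 (Finset.mem_filter.1 hz).1).2)
    (fun v ρ h1 h2 => ms_small hX (hZX k m) hc₀ h1 (h2.trans hSr) m v)
    (fun v ρ h1 => ms_reg hX (hZX k m) hc₀ hR0 hr0 (by nlinarith) (hZm k m) (fun z hz j hj => by
      have := (Finset.mem_filter.1 (Finset.mem_filter.1 (Finset.mem_filter.1 hz).1).1).2 j
      simpa only [hbd, if_pos hj] using this) v h1)
  choose E hE1 hE2 hE3 using hE
  set ex : ℕ → Finset (V (d + 1) × ℝ) := fun j =>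
    X.filter fun z => ∃ m : ℤ, |mi r c₀ z - m| ≤ D ∧ z ∈ E (win b M z.2) m j with hex
  have hcard := card_graph_le hX hR
  have hprof : ∀ l ρ : ℝ, 1 ≤ l → 0 < ρ →
      prof (d + 1) R (l * ρ) ≤ l ^ (d + 2) * (ρ * prd d R ρ) := by
    intro l ρ hl hρ
    rw [prof_eq_mul d R (by positivity)]
    calc _ ≤ l * ρ * (l ^ (d + 1) * prd d R ρ) :=
          mul_le_mul_of_nonneg_left (prd_le_mul d hR0 (by positivity) hρ.le hl le_rfl)
            (by positivity)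
      _ = _ := by ring
  have hfin : ∀ l ρ a : ℝ, 1 ≤ l → 0 < ρ → 0 ≤ a → a * l ^ (d + 2) * G ≤ B →
      a * R ^ (d + 1) / (B * (ρ * prd d R ρ)) ≤ R ^ (d + 1) / G / prof (d + 1) R (l * ρ) := by
    intro l ρ a hl hρ ha h
    have h1 := prd_ge_one d R ρ
    have h2 : 0 < prof (d + 1) R (l * ρ) := lt_of_lt_of_le (by positivity) (le_max_left _ _)
    refine le_trans ?_ (div_le_div_of_nonneg_left (by positivity) h2 (hprof l ρ hl hρ))
    rw [div_div, div_le_div_iff₀ (by positivity) (by positivity)]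
    calc _ = (a * l ^ (d + 2) * G) * (R ^ (d + 1) * (ρ * prd d R ρ)) := by ring
      _ ≤ B * (R ^ (d + 1) * (ρ * prd d R ρ)) := by gcongr
      _ = _ := by ring
  have hu3 : u ≤ u ^ 3 := le_self_pow₀ (by linarith) (by norm_num)
  refine ⟨Xr.filter fun z => ∀ j, z ∉ ex j, Z,
    (Finset.filter_subset _ _).trans (Finset.filter_subset _ _), hZX, hZm, fun k m => ?_,
    en_le_of_cover J bd ex H (fun z hz => ?_) (fun j _ => ?_) fun j _ => ?_⟩
  · refine hE3 k m _ (Finset.filter_subset_filter _ (Finset.filter_subset_filter _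
      (Finset.filter_subset _ _))) fun z hz j hj => ?_
    obtain ⟨h1, h2⟩ := Finset.mem_filter.1 hz
    obtain ⟨h3, rfl⟩ := Finset.mem_filter.1 h1
    obtain ⟨h4, h5⟩ := Finset.mem_filter.1 h3
    exact h5 j (Finset.mem_filter.2 ⟨(Finset.mem_filter.1 h4).1, m, h2, hj⟩)
  · by_cases h1 : ∃ j, z ∈ bd j
    · obtain ⟨j, hj⟩ := h1
      refine Or.inr ⟨j, hJ j ?_, Or.inl hj⟩
      by_contra h
      simp only [hbd] at hj
      rw [if_neg (by linarith only [not_le.1 h, hr48, hTR, hr0])] at hj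
      simp at hj
    by_cases h2 : ∃ j, z ∈ ex j
    · obtain ⟨j, hj⟩ := h2
      refine Or.inr ⟨j, hJ j ?_, Or.inr hj⟩
      obtain ⟨-, m, -, h3⟩ := Finset.mem_filter.1 hj
      exact (hE1 _ m j ⟨z, h3⟩).trans ((div_le_self hT0.le (by linarith only [huB, hu])).trans hTR)
    push Not at h1 h2
    exact Or.inl (Finset.mem_filter.2 ⟨Finset.mem_filter.2 ⟨hz, h1⟩, h2⟩)
  · have h2j : (1 : ℝ) ≤ 2 ^ j := one_le_pow₀ (by norm_num)
    have h1 := prd_ge_one d R (2 ^ j)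
    by_cases hj : (2 : ℝ) ^ j ≤ 4 * r
    · simp only [hbd, if_pos hj]
      refine hTI _ (bad_subset _ _ _ _ _ _) (12 * 2 ^ j) (by linarith only [h2j])
        (by linarith only [hj, hr48]) (cov_mono (cov_bad X D hc₀ hr0 (by positivity) hj
          (by positivity)) subset_rfl le_rfl (le_trans ?_ (hfin 12 (2 ^ j)
            (12 ^ (d + 1) * (2 * u)) (by norm_num) (by positivity) (by positivity) ?_)))
      · calc _ ≤ (3 * R) ^ (d + 1) * (2 * u) / (B * prd d R (2 ^ j) / 4 ^ (d + 1) * 2 ^ j) := by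
              gcongr; linarith only [hD, hu]
          _ = _ := by
              rw [mul_pow, show (12 : ℝ) = 3 * 4 by norm_num, mul_pow]; field_simp
      · refine le_trans ?_ hG1
        have h3 : (12 : ℝ) ^ (d + 1) * 12 ^ (d + 2) ≤ 144 ^ (d + 2) := by
          rw [show (144 : ℝ) = 12 * 12 by norm_num, mul_pow]
          gcongr
          · norm_num
          · omega
        calc _ = 2 * (12 ^ (d + 1) * 12 ^ (d + 2)) * u * G := by ring
          _ ≤ _ := by gcongr; norm_num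
    · simp only [hbd, if_neg hj]
      refine hTI _ (Finset.empty_subset _) 1 le_rfl (Real.one_le_sqrt.2 hR) ⟨∅, ?_, by simp⟩
      have h2 : 0 < prof (d + 1) R 1 := lt_of_lt_of_le one_pos (le_max_left _ _)
      simp only [Finset.card_empty, Nat.cast_zero]; positivity
  · have h2j : (1 : ℝ) ≤ 2 ^ j := one_le_pow₀ (by norm_num)
    have h1 := prd_ge_one d R (2 ^ j)
    by_cases hne : (ex j).Nonempty
    · obtain ⟨z₀, hz₀⟩ := hne
      obtain ⟨-, m₀, -, h3⟩ := Finset.mem_filter.1 hz₀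
      have h4 := hE1 _ m₀ j ⟨z₀, h3⟩
      rw [le_div_iff₀ hB0] at h4
      have h5 : 6 * 2 ^ j ≤ √R := by nlinarith only [h4, h2j, hu, huB]
      obtain ⟨Ms, hMs1, hMs2⟩ := exists_slices (d := d) Y D hr0 (by linarith only [hu]) hD hY c₀
      have hK := card_windows hL0 hLR (K := X.image fun z => win b M z.2) fun k hk => by
        obtain ⟨z, hz, rfl⟩ := Finset.mem_image.1 hk
        obtain ⟨h6, h7⟩ := hwin z.2
        obtain ⟨h8, h9⟩ := abs_le.1 (hX.1 z hz).2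
        exact abs_le.2 ⟨by linarith only [h7, h8, hLR], by linarith only [h6, h9, hR0]⟩
      refine hTI _ (Finset.filter_subset _ _) (6 * 2 ^ j) (by linarith only [h2j]) h5
        (cov_mono (cov_exc (X.image fun z => win b M z.2) Ms (fun k m => E k m j) (T := √R) hc₀ hr0
          (by positivity) (by linarith only [h5, h2j]) (by nlinarith only [hD, hr, hr0, hu])
          (by positivity) (fun k m => hE2 k m j) fun z hz => ?_) subset_rfl le_rfl
          (le_trans ?_ (hfin 6 (2 ^ j) (180 * u ^ 3) (by norm_num) (by positivity)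
            (by positivity) ?_)))
      · obtain ⟨h6, m, h7, h8⟩ := Finset.mem_filter.1 hz
        obtain ⟨y, hy, h9⟩ := hXY z h6
        refine ⟨_, Finset.mem_image_of_mem _ h6, m, hMs2 z m ⟨y, hy, h9.trans (le_of_eq ?_)⟩ h7,
          h7, h8⟩
        rw [← hr]; ring
      · calc _ ≤ 5 * (R / L) * (9 * u ^ 3) *
              (R ^ d * L / (B * √R * prd d R (2 ^ j)) * (4 * √R / 2 ^ j)) := by gcongr
          _ = _ := by field_simp; ring
      · refine le_trans ?_ hG1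
        calc _ = 180 * 6 ^ (d + 2) * u ^ 3 * G := by ring
          _ ≤ _ := by gcongr; norm_num
    · rw [Finset.not_nonempty_iff_eq_empty.1 hne]
      refine hTI _ (Finset.empty_subset _) 1 le_rfl (Real.one_le_sqrt.2 hR) ⟨∅, ?_, by simp⟩
      have h2 : 0 < prof (d + 1) R 1 := lt_of_lt_of_le one_pos (le_max_left _ _)
      simp only [Finset.card_empty, Nat.cast_zero]; positivity

end Crest.Agent.N76.II.B
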