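import Crest.Agent.N76.II.B.Est

/-! # Row 76, part II D: rich and poor lines, the estimate for the regular points (helper8). -/

set_option autoImplicit false

open MeasureTheory Set Metric
open scoped ENNReal RealInnerProductSpace

namespace Crest.Agent.N76.II.B

open Crest.Agent.N76.Red (V ph)
open Crest.Agent.N76.G

variable {d : ℕ}

/-- the conclusion of `LP` for one configuration -/
def LPout {ι : Type} (X X' : Finset ι) (p : ι → V d × ℝ) (w : ι → ℝ) (T Lp L : ℝ) (k : ℤ)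
    (B c C err : ℝ) : Prop :=
  ∀ (𝓡 : Set (Ph d)) (φ₀ : ℝ), MeasurableSet 𝓡 → (∀ β ∈ 𝓡, ‖β.2‖ ≤ 2) → 0 ≤ φ₀ →
    (∀ z ∈ X', ∃ Φ : Set (V d), MeasurableSet Φ ∧ volume Φ ≤ ENNReal.ofReal φ₀ ∧
      ∀ β ∈ 𝓡, ‖pos (p z).2 β - (p z).1‖ ≤ B * T → closedBall β.2 (1 / B ^ 22) ⊆ Φ) →
    ∀ g : L2 d, En X' p w (fun _ => loc T 0 𝓡 g) ≤
      C * φ₀ ^ c * (∫ β in 𝓡, xray (vv X p w Lp) ((k - 1) * L) ((k + 2) * L) β *
        ‖co T 0 g β‖ ^ 2) + err * ‖g‖ ^ 2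

/-- few directions through a point are rich -/
lemma exists_dir (d : ℕ) : ∃ C : ℝ, 0 ≤ C ∧ ∀ (ι : Type) (X : Finset ι) (p : ι → V d × ℝ)
    (Lp A R σ ρ₁ ρ₂ : ℝ) (u : V d × ℝ), 0 < Lp → 1 ≤ A → 0 < R → 0 < σ →
    (X.card : ℝ) = σ ^ (d + 1) * R ^ (d + 1) → |u.2| ≤ R → ρ₂ ≤ 1 → ρ₁ + 10 * R * ρ₂ ≤ Lp →
    ∃ Φ : Set (V d), MeasurableSet Φ ∧ volume Φ ≤ ENNReal.ofReal (C * A * √σ) ∧
      ∀ β : Ph d, ‖β.2‖ ≤ 2 → √σ ≤ xray (cm X p Lp A) (-(4 * R)) (4 * R) β / R →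
        ‖pos u.2 β - u.1‖ ≤ ρ₁ → closedBall β.2 ρ₂ ⊆ Φ := by
  obtain ⟨C, hC, hb⟩ := bush d
  refine ⟨2 * Real.exp 1 * C, by positivity, ?_⟩
  intro ι X p Lp A R σ ρ₁ ρ₂ u hLp hA hR hσ hX hu hρ₂ hρ
  have hs : 0 < √σ := Real.sqrt_pos.2 hσ
  set F : V d → ℝ := fun ζ => xray (cm X p Lp A) (-(4 * R)) (4 * R) (thru u ζ) with hF
  have hFc : Continuous F := (continuous_xray (continuous_cm X p Lp A) _ _).comp
    (by unfold thru; fun_prop)
  set θ : ℝ := √σ * R / Real.exp 1 with hθ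
  have hθ0 : 0 < θ := by positivity
  refine ⟨closedBall 0 3 ∩ {ζ | θ ≤ F ζ}, measurableSet_closedBall.inter
    (isClosed_le continuous_const hFc).measurableSet, ?_, fun β hβ hr hn ζ hζ => ⟨?_, ?_⟩⟩
  · have h1 := meas_ge_le_lintegral_div (μ := volume.restrict (closedBall (0 : V d) 3))
      hFc.measurable.ennreal_ofReal.aemeasurable (ε := ENNReal.ofReal θ) (by simpa using hθ0)
      ENNReal.ofReal_ne_top
    rw [Measure.restrict_apply' measurableSet_closedBall] at h1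
    calc _ ≤ volume ({ζ | ENNReal.ofReal θ ≤ ENNReal.ofReal (F ζ)} ∩ closedBall 0 3) :=
          measure_mono fun ζ hζ => ⟨ENNReal.ofReal_le_ofReal hζ.2, hζ.1⟩
      _ ≤ _ := h1
      _ ≤ ENNReal.ofReal (C * (A * (σ * R) + (X.card : ℝ) / (σ * R) ^ d)) / ENNReal.ofReal θ := by
          gcongr
          exact hb ι X p Lp A R σ u hLp (by linarith) hR hσ
      _ ≤ _ := by
          rw [← ENNReal.ofReal_div_of_pos hθ0]
          refine ENNReal.ofReal_le_ofReal ?_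
          have h2 : (X.card : ℝ) / (σ * R) ^ d = σ * R := by rw [hX]; field_simp; ring
          have h3 : σ = √σ * √σ := (Real.mul_self_sqrt hσ.le).symm
          rw [h2, div_le_iff₀ hθ0]
          calc C * (A * (σ * R) + σ * R) ≤ C * (A * (σ * R) + A * (σ * R)) := by
                have : σ * R ≤ A * (σ * R) := le_mul_of_one_le_left (by positivity) hA
                exact mul_le_mul_of_nonneg_left (by linarith) hC
            _ = 2 * Real.exp 1 * C * A * √σ * θ := by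
                rw [hθ]; field_simp; nlinarith [Real.sq_sqrt hσ.le]
  · rw [mem_closedBall, dist_eq_norm] at hζ
    rw [mem_closedBall, dist_zero_right]
    have := norm_sub_norm_le ζ β.2
    linarith
  · rw [mem_closedBall, dist_eq_norm] at hζ
    have h1 := xray_cm_lip X p hLp (by linarith : 0 ≤ A) (by linarith : -(4 * R) ≤ 4 * R)
      (β := β) (β' := thru u ζ) fun s hs => by
        have e : pos s β - pos s (thru u ζ) =
            (pos u.2 β - u.1) + (2 * (s - u.2)) • (ζ - β.2) := by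
          rw [pos_thru]; simp only [pos]; module
        have h2 : |2 * (s - u.2)| ≤ 10 * R := by
          obtain ⟨h3, h4⟩ := hs
          obtain ⟨h5, h6⟩ := abs_le.1 hu
          exact abs_le.2 ⟨by linarith, by linarith⟩
        rw [e]
        refine (norm_add_le _ _).trans (le_trans ?_ hρ)
        rw [norm_smul, Real.norm_eq_abs]
        gcongr
    rw [le_div_iff₀ hR] at hr
    show θ ≤ F ζ
    rw [hθ, div_le_iff₀ (Real.exp_pos 1)]
    linarith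

lemma exp_le_ww {r : ℝ} (hr : 0 < r) (c₀ : ℝ) (z : V (d + 1) × ℝ) (y : ℝ) :
    1 / r * Real.exp (-(|yc c₀ z - y| / r)) ≤ Real.exp 1 / kap d * ww r c₀ ⌊y / r⌋ z := by
  have hk := kap_pos d
  have h1 : |(mi r c₀ z : ℝ) - (⌊y / r⌋ : ℤ)| ≤ 1 + |yc c₀ z - y| / r := by
    have e : |yc c₀ z - y| / r = |yc c₀ z / r - y / r| := by
      rw [← sub_div, abs_div, abs_of_pos hr]
    have h2 := Int.floor_le (yc c₀ z / r)
    have h3 := Int.lt_floor_add_one (yc c₀ z / r)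
    have h4 := Int.floor_le (y / r)
    have h5 := Int.lt_floor_add_one (y / r)
    have h6 := le_abs_self (yc c₀ z / r - y / r)
    have h7 := neg_abs_le (yc c₀ z / r - y / r)
    rw [e, mi]
    exact abs_le.2 ⟨by linarith, by linarith⟩
  calc _ ≤ 1 / r * (Real.exp 1 * Real.exp (-|(mi r c₀ z : ℝ) - (⌊y / r⌋ : ℤ)|)) := by
        rw [← Real.exp_add]; gcongr; linarith
    _ = _ := by unfold ww; field_simp

lemma ww_le_exp {r : ℝ} (hr : 1 ≤ r) (c₀ : ℝ) (m : ℤ) (z : V (d + 1) × ℝ) :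
    ww r c₀ m z ≤ Real.exp (-|(mi r c₀ z : ℝ) - m|) := by
  have h1 : kap d / r ≤ 1 := by
    rw [div_le_one (by linarith)]; linarith [kap_le d]
  exact mul_le_of_le_one_left (Real.exp_pos _).le h1

lemma lintegral_three {α : Type*} [MeasurableSpace α] (μ : Measure α) {f₁ f₂ f₃ : α → ℝ≥0∞}
    (h₁ : Measurable f₁) (h₂ : Measurable f₂) (h₃ : Measurable f₃) (a b c : ℝ≥0∞) :
    ∫⁻ y, (a * f₁ y + b * f₂ y + c * f₃ y) ∂μ =
      a * (∫⁻ y, f₁ y ∂μ) + b * (∫⁻ y, f₂ y ∂μ) + c * ∫⁻ y, f₃ y ∂μ := by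
  rw [lintegral_add_right _ (h₃.const_mul c), lintegral_add_right _ (h₂.const_mul b),
    lintegral_const_mul _ h₁, lintegral_const_mul _ h₂, lintegral_const_mul _ h₃]

lemma card_windows {R L : ℝ} (hL : 0 < L) (hLR : L ≤ R) {K : Finset ℤ}
    (hK : ∀ k ∈ K, |(k : ℝ) * L| ≤ 2 * R) : (K.card : ℝ) ≤ 5 * (R / L) := by
  have hR : 0 < R := by linarith
  have h1 : K ⊆ Finset.Icc (-⌊2 * R / L⌋) ⌊2 * R / L⌋ := by
    intro k hk
    obtain ⟨h2, h3⟩ := abs_le.1 (hK k hk)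
    refine Finset.mem_Icc.2 ⟨neg_le.1 (Int.le_floor.2 ?_), Int.le_floor.2 ?_⟩
    · rw [le_div_iff₀ hL]; push_cast; linarith
    · rw [le_div_iff₀ hL]; linarith
  have h2 : 0 ≤ ⌊2 * R / L⌋ := Int.floor_nonneg.2 (by positivity)
  have h3 : (K.card : ℤ) ≤ 2 * ⌊2 * R / L⌋ + 1 := by
    have := Finset.card_le_card h1
    rw [Int.card_Icc] at this
    omega
  have h4 : (K.card : ℝ) ≤ 2 * (⌊2 * R / L⌋ : ℤ) + 1 := by exact_mod_cast h3
  have h5 := Int.floor_le (2 * R / L)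
  have h6 : 1 ≤ R / L := by rw [le_div_iff₀ hL]; linarith
  have h7 : 2 * R / L = 2 * (R / L) := by ring
  linarith

lemma loc_split {T : ℝ} (hT : 0 < T) {M : Ph d → ℝ} (hM : Continuous M) (s : ℝ) :
    MeasurableSet {β : Ph d | ‖β.2‖ ≤ 2 ∧ s ≤ M β} ∧ MeasurableSet {β : Ph d | ‖β.2‖ ≤ 2 ∧ M β < s} ∧
    ∀ G : L2 d, loc T 0 {β : Ph d | ‖β.2‖ ≤ 2 ∧ s ≤ M β} G +
      loc T 0 {β : Ph d | ‖β.2‖ ≤ 2 ∧ M β < s} G + loc T 0 {β : Ph d | 2 < ‖β.2‖} G = G := by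
  have hn : MeasurableSet {β : Ph d | ‖β.2‖ ≤ 2} :=
    (isClosed_le (by fun_prop) continuous_const).measurableSet
  have hrm : MeasurableSet {β : Ph d | ‖β.2‖ ≤ 2 ∧ s ≤ M β} :=
    hn.inter (isClosed_le continuous_const hM).measurableSet
  have hpm : MeasurableSet {β : Ph d | ‖β.2‖ ≤ 2 ∧ M β < s} :=
    hn.inter (isOpen_lt hM continuous_const).measurableSet
  have hfm : MeasurableSet {β : Ph d | 2 < ‖β.2‖} :=
    (isOpen_lt continuous_const (by fun_prop)).measurableSet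
  refine ⟨hrm, hpm, fun G => ?_⟩
  rw [← loc_union hT 0 hrm hpm, ← loc_union hT 0 (hrm.union hpm) hfm]
  · convert loc_univ hT 0 G
    refine eq_univ_of_forall fun β => ?_
    by_cases h : ‖β.2‖ ≤ 2
    · rcases le_or_gt s (M β) with h' | h'
      · exact Or.inl (Or.inl ⟨h, h'⟩)
      · exact Or.inl (Or.inr ⟨h, h'⟩)
    · exact Or.inr (not_le.1 h)
  · refine Set.disjoint_left.2 fun β h1 h2 => ?_
    have h3 : ‖β.2‖ ≤ 2 := by rcases h1 with h | h <;> exact h.1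
    exact absurd h2 (not_lt.2 h3)
  · exact Set.disjoint_left.2 fun β h1 h2 => absurd h2.2 (not_lt.2 h1.2)

open Classical in
/-- the bound for one slice -/
lemma slice_bound {r c₀ T Cs N u₁ u₂ : ℝ} {D : ℕ} (Y : Finset (V (d + 1) × ℝ)) (y : ℝ)
    (hr : 1 ≤ r) (hT : 1 ≤ T) (hCs : 0 ≤ Cs) (hN : (Y.card : ℝ) ≤ N) (G G₁ G₂ : L2 d)
    (hG : ∀ᵐ ξ : V d, 1 < ‖ξ‖ → G ξ = 0) (hs : G₁ + G₂ + loc T 0 {β : Ph d | 2 < ‖β.2‖} G = G)
    (h₁ : En (Y.filter fun z => |mi r c₀ z - ⌊y / r⌋| ≤ D) pr (ww r c₀ ⌊y / r⌋) (fun _ => G₁) ≤ u₁)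
    (h₂ : En (Y.filter fun z => |mi r c₀ z - ⌊y / r⌋| ≤ D) pr (ww r c₀ ⌊y / r⌋) (fun _ => G₂) ≤ u₂) :
    ∑ z ∈ Y, Cs / r * Real.exp (-(|yc c₀ z - y| / r)) * ‖inner ℂ (pt (pr z)) G‖ ^ 2 ≤
      Cs * (Real.exp 1 / kap d) *
        (3 * (u₁ + u₂) + N * (3 * 2 ^ d * Real.exp (-T) + Real.exp (-D)) * ‖G‖ ^ 2) := by
  have hr0 : 0 < r := by linarith
  have hk := kap_pos d
  set m := ⌊y / r⌋ with hm
  set X' := Y.filter fun z => |mi r c₀ z - m| ≤ D with hX'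
  have hw0 : ∀ z ∈ X', 0 ≤ ww r c₀ m z := fun z _ => ww_nonneg hr0 c₀ m z
  have hcX : ∀ {P : V (d + 1) × ℝ → Prop} [DecidablePred P], ((Y.filter P).card : ℝ) ≤ N :=
    fun {P} _ => le_trans (by exact_mod_cast Finset.card_filter_le _ _) hN
  have h1 : ∑ z ∈ Y, ww r c₀ m z * ‖inner ℂ (pt (pr z)) G‖ ^ 2 ≤
      En X' pr (ww r c₀ m) (fun _ => G) + N * Real.exp (-D) * ‖G‖ ^ 2 := by
    rw [← Finset.sum_filter_add_sum_filter_not _ fun z => |mi r c₀ z - m| ≤ D]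
    refine add_le_add le_rfl ?_
    calc _ ≤ ∑ _z ∈ Y.filter fun z => ¬ |mi r c₀ z - m| ≤ D, Real.exp (-D) * ‖G‖ ^ 2 := by
          refine Finset.sum_le_sum fun z hz => mul_le_mul ((ww_le_exp hr c₀ m z).trans ?_)
            (inner_pt_sq_le _ _) (by positivity) (by positivity)
          have h2 : (D : ℤ) ≤ |mi r c₀ z - m| := (not_le.1 (Finset.mem_filter.1 hz).2).le
          have h3 : (D : ℝ) ≤ |(mi r c₀ z : ℝ) - m| := by exact_mod_cast h2
          exact Real.exp_le_exp.2 (neg_le_neg h3)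
      _ ≤ _ := by
          rw [Finset.sum_const, nsmul_eq_mul, mul_assoc]
          exact mul_le_mul_of_nonneg_right hcX (by positivity)
  have h2 := en_add_three (p := pr) hw0 G₁ G₂ (loc T 0 {β : Ph d | 2 < ‖β.2‖} G)
  rw [hs] at h2
  have h5 : En X' pr (ww r c₀ m) (fun _ => loc T 0 {β : Ph d | 2 < ‖β.2‖} G) ≤
      N * (2 ^ d * Real.exp (-T) * ‖G‖ ^ 2) :=
    (en_le_card (fun z _ => (ww_le_exp hr c₀ m z).trans (Real.exp_le_one_iff.2
      (neg_nonpos.2 (abs_nonneg _)))) _).trans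
      (mul_le_mul hcX (far_le hT G hG) (by positivity) ((Nat.cast_nonneg _).trans hN))
  calc _ ≤ ∑ z ∈ Y, Cs * (Real.exp 1 / kap d) * (ww r c₀ m z * ‖inner ℂ (pt (pr z)) G‖ ^ 2) := by
        refine Finset.sum_le_sum fun z _ => ?_
        have := exp_le_ww hr0 c₀ z y
        calc _ = Cs * (1 / r * Real.exp (-(|yc c₀ z - y| / r))) *
              ‖inner ℂ (pt (pr z)) G‖ ^ 2 := by ring
          _ ≤ Cs * (Real.exp 1 / kap d * ww r c₀ m z) * ‖inner ℂ (pt (pr z)) G‖ ^ 2 := by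
              gcongr
          _ = _ := by ring
    _ ≤ _ := by
        rw [← Finset.mul_sum]
        refine mul_le_mul_of_nonneg_left ?_ (by positivity)
        linarith

lemma final_arith {C₁ Cs Ct Cp x₁ x₂ x₃ y₁ y₂ y₃ s₁ s₂ s₃ P Q w err N E h t : ℝ}
    (hC₁ : 0 ≤ C₁) (hCs : 0 ≤ Cs) (hCt : 0 ≤ Ct) (hCp : 0 ≤ Cp) (hx₁ : 0 ≤ x₁) (hx₂ : 0 ≤ x₂)
    (hx₃ : 0 ≤ x₃) (hy₁ : 0 ≤ y₁) (hy₂ : 0 ≤ y₂) (hs₁ : 0 ≤ s₁) (hs₂ : 0 ≤ s₂) (hs₃ : s₁ ≤ s₃)
    (hP : 0 ≤ P) (hQ : 0 ≤ Q) (hw : 0 ≤ w) (herr : 0 ≤ err) (hN : 0 ≤ N) (hE : y₃ ≤ 6 * t * E)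
    (hE0 : 0 ≤ E) (hh : 0 ≤ h) (ht : 1 ≤ t) :
    3 * C₁ * Cp * (x₁ * s₁) * (Ct * (P * x₂ + x₃ * Q) * (Cs * h)) +
      3 * C₁ * Cp * y₁ * (Ct * (P * (y₂ * s₂) + x₃ * Q) * (Cs * h)) +
      5 * w * (C₁ * (6 * err + N * y₃) * (Cs * h)) ≤
    3 * C₁ * Cs * (Ct * (x₁ * (x₂ + s₃ * x₃) + y₁ * (y₂ + x₃)) + 10 * t) *
      (Cp * ((s₁ + s₂) * P + Q) + w * (err + N * E)) * h := by
  set W := (s₁ + s₂) * P + Q with hW
  set M := w * (err + N * E) with hM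
  have hM0 : 0 ≤ M := by positivity
  have hW1 : s₁ * P ≤ W := by rw [hW]; nlinarith [mul_nonneg hs₂ hP]
  have hW2 : s₂ * P ≤ W := by rw [hW]; nlinarith [mul_nonneg hs₁ hP]
  have hW3 : Q ≤ W := by rw [hW]; nlinarith [mul_nonneg hs₁ hP, mul_nonneg hs₂ hP]
  have hW0 : 0 ≤ W := hQ.trans hW3
  have hs₃0 : 0 ≤ s₃ := hs₁.trans hs₃
  have g1 : x₁ * (x₂ * (s₁ * P) + s₁ * x₃ * Q) ≤ x₁ * (x₂ * W + s₃ * x₃ * W) := by gcongr
  have g2 : y₁ * (y₂ * (s₂ * P) + x₃ * Q) ≤ y₁ * (y₂ * W + x₃ * W) := by gcongr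
  have g3 : 5 * w * (6 * err + N * y₃) ≤ 5 * w * (6 * t * err + N * (6 * t * E)) := by
    have : 6 * err ≤ 6 * t * err := by nlinarith
    gcongr
  set a := x₁ * (x₂ + s₃ * x₃) + y₁ * (y₂ + x₃) with ha
  have ha0 : 0 ≤ a := by positivity
  calc _ = C₁ * Cs * h * (3 * (Ct * Cp * (x₁ * (x₂ * (s₁ * P) + s₁ * x₃ * Q) +
        y₁ * (y₂ * (s₂ * P) + x₃ * Q))) + 5 * w * (6 * err + N * y₃)) := by ring
    _ ≤ C₁ * Cs * h * (3 * (Ct * Cp * (x₁ * (x₂ * W + s₃ * x₃ * W) +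
        y₁ * (y₂ * W + x₃ * W))) + 5 * w * (6 * t * err + N * (6 * t * E))) := by gcongr
    _ = C₁ * Cs * h * (3 * (Ct * a * (Cp * W) + 10 * t * M)) := by rw [ha, hM]; ring
    _ ≤ C₁ * Cs * h * (3 * ((Ct * a + 10 * t) * (Cp * W + M))) := by
        refine mul_le_mul_of_nonneg_left ?_ (by positivity)
        have t1 : 0 ≤ Ct * a * M := by positivity
        have t2 : 0 ≤ 10 * t * (Cp * W) := by positivity
        nlinarith
    _ = _ := by ring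

open Classical in
/-- **the estimate for the regular points** -/
lemma main_est (d : ℕ) (hd : 1 ≤ d) {c : ℝ} (hc : 0 < c) : ∃ C : ℝ, 0 ≤ C ∧
    ∀ (R r L T Lp B c₀ σ Cp err : ℝ) (D : ℕ) (X Xs : Finset (V (d + 1) × ℝ))
      (kk : V (d + 1) × ℝ → ℤ) (Z : ℤ → ℤ → Finset (V (d + 1) × ℝ)) (H : L2 (d + 1)),
    Graph R X → Xs ⊆ X → |c₀| ≤ 2 → 1 ≤ r → 0 < L → L ≤ r ^ 2 → L ≤ R → 1 ≤ T → 1 ≤ B →
    r + R / r + (2 * D + 2) * r ≤ Lp → B * T + 10 * R * (1 / B ^ 22) ≤ Lp →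
    0 < σ → σ ≤ 3 → (X.card : ℝ) = σ ^ (d + 1) * R ^ (d + 1) → 0 ≤ Cp → 0 ≤ err →
    (∀ z ∈ X, kk z * L ≤ z.2 ∧ z.2 ≤ kk z * L + L) → (∀ k m, Z k m ⊆ X) →
    (∀ k m, ∀ z ∈ Z k m, |mi r c₀ z - m| ≤ D) →
    (∀ k m, LPout (Z k m) ((Xs.filter fun z => kk z = k).filter fun z => |mi r c₀ z - m| ≤ D) pr
      (ww r c₀ m) T Lp L k B c Cp err) →
    (∀ᵐ ξ : V (d + 1), 1 < ‖ξ‖ → H ξ = 0) → (∀ᵐ ξ : V (d + 1), 1 / r < |ξ 0 - c₀| → H ξ = 0) →
    En Xs id (fun _ => 1) (fun _ => H) ≤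
      C * (Cp * ((σ ^ (c / 2) + σ ^ (1 / (2 * ((d : ℝ) + 2)))) * R ^ (((d : ℝ) + 1) / (d + 2))
          + L * (1 / r) ^ (2 / ((d : ℝ) + 2)))
        + R / L * (err + X.card * (Real.exp (-T) + Real.exp (-D)))) * ‖H‖ ^ 2 := by
  obtain ⟨Cs, hCs, hsl⟩ := slice d
  obtain ⟨Ct, hCt, hst⟩ := st_sum d hd
  obtain ⟨Cb, hCb, hdir⟩ := exists_dir d
  obtain ⟨A, hA1, hA⟩ := exists_col_const d
  obtain ⟨v, hv0, hv⟩ : ∃ v : ℝ, 0 ≤ v ∧ volume (closedBall (0 : V d) 3) ≤ ENNReal.ofReal v :=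
    ⟨_, ENNReal.toReal_nonneg, (ENNReal.ofReal_toReal measure_closedBall_lt_top.ne).ge⟩
  have hk := kap_pos d
  obtain ⟨C₁, hC₁⟩ : ∃ C₁, C₁ = Cs * (Real.exp 1 / kap d) := ⟨_, rfl⟩
  have hC₁0 : 0 ≤ C₁ := by rw [hC₁]; positivity
  have hA0 : 0 ≤ A := by linarith
  refine ⟨3 * C₁ * Cs * (Ct * ((Cb * A) ^ c * ((A * (8 * A)) ^ (1 / ((d : ℝ) + 2)) +
    3 ^ (c / 2) * A ^ (2 / ((d : ℝ) + 2))) + v ^ c * (A ^ (1 / ((d : ℝ) + 2)) +
    A ^ (2 / ((d : ℝ) + 2)))) + 10 * 2 ^ d), by positivity, ?_⟩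
  intro R r L T Lp B c₀ σ Cp err D X Xs kk Z H hX hXs hc₀ hr hL hLr hLR hT hB hLp hLp2 hσ hσ3 hcard
    hCp herr hkk hZ hZm hLP hH1 hH2
  have hr0 : 0 < r := by linarith
  have hR : 0 < R := by linarith
  have hT0 : 0 < T := by linarith
  have hLp1 : 1 ≤ Lp := by
    have h1 : 0 < (2 * (D : ℝ) + 2) * r := by positivity
    have h2 : 0 < R / r := by positivity
    linarith
  have hLp0 : 0 < Lp := by linarith
  have hB22 : 1 / B ^ 22 ≤ 1 := by rw [div_le_one (by positivity)]; exact one_le_pow₀ hB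
  have hKR : ∀ k ∈ Xs.image kk, |(k : ℝ) * L| ≤ 2 * R := by
    intro k hk
    obtain ⟨z, hz, rfl⟩ := Finset.mem_image.1 hk
    obtain ⟨h1, h2⟩ := hkk z (hXs hz)
    obtain ⟨h3, h4⟩ := abs_le.1 (hX.1 z (hXs hz)).2
    exact abs_le.2 ⟨by linarith, by linarith⟩
  have hwin : ∀ k : ℤ, ((k : ℝ) - 1) * L ≤ (k + 2) * L := fun k =>
    mul_le_mul_of_nonneg_right (by linarith) hL.le
  have h8 : ∀ β, xray (cm X pr Lp A) (-(4 * R)) (4 * R) β / R ≤ 8 * A := fun β => by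
    have := xray_le (continuous_cm X pr Lp A) (fun u => min_le_left _ _)
      (a := -(4 * R)) (b := 4 * R) (by linarith) β
    rw [div_le_iff₀ hR]; linarith
  have hKc := card_windows hL hLR hKR
  obtain ⟨g, cc, hg1, hg2, hg3, hg4, hg5, hg6, hg7, hg8, hg9⟩ := hsl r T c₀ hr hT0 H hH1 hH2
  obtain ⟨hrm, hpm, hsplit⟩ := loc_split hT0
    ((continuous_xray (continuous_cm X pr Lp A) (-(4 * R)) (4 * R)).div_const R) (√σ)
  have hA' : ∀ (E : Finset (V (d + 1) × ℝ)) (a : ℝ) (u : V d × ℝ), E ⊆ X →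
      (∀ z ∈ E, a ≤ yc c₀ z ∧ yc c₀ z ≤ a + Lp) → dens E pr (fun _ => 1) Lp u ≤ A :=
    fun E a u h1 h2 => hA R X E c₀ Lp a u hX h1 hc₀ hLp1 h2
  have hs1 := hst X A R L r Lp T c₀ _ D _ Z g cc _ (8 * A) hA' hA0 hr0 hL hLR hT0 hLp
    hKR hZ hZm hg1 hg5 hg6 hg7 hg8 hg9 hrm fun β _ => h8 β
  have hs2 := hst X A R L r Lp T c₀ _ D _ Z g cc _ (√σ) hA' hA0 hr0 hL hLR hT0 hLp
    hKR hZ hZm hg1 hg5 hg6 hg7 hg8 hg9 hpm fun β hβ => hβ.2.le
  have hLr' := fun k m => hLP k m _ (Cb * A * √σ) hrm (fun β h => h.1) (by positivity) fun z hz => by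
    obtain ⟨Φ, h1, h2, h3⟩ := hdir _ X pr Lp A R σ (B * T) (1 / B ^ 22) (pr z) hLp0 hA1
      hR hσ hcard (hX.1 z (hXs (Finset.mem_filter.1 (Finset.mem_filter.1 hz).1).1)).2 hB22 hLp2
    exact ⟨Φ, h1, h2, fun β hβ => h3 β hβ.1 hβ.2⟩
  have hLp' := fun k m => hLP k m _ v hpm (fun β h => h.1) hv0 fun z _ =>
    ⟨closedBall 0 3, measurableSet_closedBall, hv, fun β hβ _ ζ hζ => by
      rw [mem_closedBall, dist_eq_norm] at hζ
      rw [mem_closedBall, dist_zero_right]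
      have h5 := norm_sub_norm_le ζ β.2
      linarith only [h5, hζ, hβ.1, hB22]⟩
  generalize {β : Ph d | ‖β.2‖ ≤ 2 ∧ √σ ≤ xray (cm X pr Lp A) (-(4 * R)) (4 * R) β / R} = rich at *
  generalize {β : Ph d | ‖β.2‖ ≤ 2 ∧ xray (cm X pr Lp A) (-(4 * R)) (4 * R) β / R < √σ} = poor at *
  clear hsl hst hdir hA hLP
  obtain ⟨φ, hφ⟩ : ∃ φ, φ = Cb * A * √σ := ⟨_, rfl⟩
  obtain ⟨a₃, ha₃⟩ : ∃ a₃, a₃ =
    C₁ * (6 * err + X.card * (3 * 2 ^ d * Real.exp (-T) + Real.exp (-D))) := ⟨_, rfl⟩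
  rw [← hφ] at hLr'
  have hφ0 : 0 ≤ φ := by rw [hφ]; positivity
  have ha₃0 : 0 ≤ a₃ := by rw [ha₃]; positivity
  have hitg : ∀ k y β, 0 ≤ itg Z r c₀ Lp L T g k y β := fun k y β =>
    mul_nonneg (xray_nonneg (fun u => Real.rpow_nonneg
      (dens_nonneg _ pr (fun z _ => ww_nonneg hr0 c₀ _ z) hLp0 u) _) (hwin k) β) (by positivity)
  have hpt : ∀ (k : ℤ) (y : ℝ), ∑ z ∈ Xs.filter fun z => kk z = k,
      Cs / r * Real.exp (-(|yc c₀ z - y| / r)) * ‖inner ℂ (pt (pr z)) (g (k * L) y)‖ ^ 2 ≤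
      3 * C₁ * Cp * φ ^ c * (∫ β in rich, itg Z r c₀ Lp L T g k y β) +
      3 * C₁ * Cp * v ^ c * (∫ β in poor, itg Z r c₀ Lp L T g k y β) +
      a₃ * ‖g (k * L) y‖ ^ 2 := by
    intro k y
    refine (slice_bound (N := X.card) _ y hr hT hCs (by
      exact_mod_cast Finset.card_le_card ((Finset.filter_subset _ _).trans hXs)) _ _ _ (hg2 _ _)
      (hsplit _) (hLr' k _ _) (hLp' k _ _)).trans (le_of_eq ?_)
    rw [ha₃, ← hC₁]
    simp only [itg]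
    ring
  have hm := measurable_itg Z r c₀ Lp L hT0 hg1
  have hJ : ∀ (S : Set (Ph d)) (k : ℤ), Measurable fun y =>
      ∫⁻ β in S, ENNReal.ofReal (itg Z r c₀ Lp L T g k y β) := fun S k =>
    (hm k).lintegral_prod_right'
  rw [← ENNReal.ofReal_le_ofReal_iff (by positivity)]
  calc ENNReal.ofReal (En Xs id (fun _ => 1) (fun _ => H))
      = ∑ k ∈ Xs.image kk, ∑ z ∈ Xs.filter fun z => kk z = k,
          ENNReal.ofReal (‖inner ℂ (pt z) H‖ ^ 2) := by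
        unfold En
        rw [ENNReal.ofReal_sum_of_nonneg fun _ _ => by positivity,
          Finset.sum_fiberwise_of_maps_to fun z hz => Finset.mem_image_of_mem kk hz]
        simp only [one_mul, id]
    _ ≤ ∑ k ∈ Xs.image kk, (ENNReal.ofReal (3 * C₁ * Cp * φ ^ c) *
          (∫⁻ y, ∫⁻ β in rich, ENNReal.ofReal (itg Z r c₀ Lp L T g k y β)) +
          ENNReal.ofReal (3 * C₁ * Cp * v ^ c) *
          (∫⁻ y, ∫⁻ β in poor, ENNReal.ofReal (itg Z r c₀ Lp L T g k y β)) +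
          ENNReal.ofReal a₃ * ENNReal.ofReal (Cs * ‖H‖ ^ 2)) := by
        refine Finset.sum_le_sum fun k _ => ?_
        calc _ ≤ ∑ z ∈ Xs.filter fun z => kk z = k, ∫⁻ y, ENNReal.ofReal
              (Cs / r * Real.exp (-(|yc c₀ z - y| / r)) *
                ‖inner ℂ (pt (pr z)) (g (k * L) y)‖ ^ 2) := by
              refine Finset.sum_le_sum fun z hz => hg4 z _ ?_
              obtain ⟨h1, rfl⟩ := Finset.mem_filter.1 hz
              obtain ⟨h2, h3⟩ := hkk z (hXs h1)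
              exact abs_le.2 ⟨by linarith only [h2, hL, hLr], by linarith only [h3, hLr]⟩
          _ ≤ _ := sum_lintegral_le _ _ _
          _ ≤ ∫⁻ y, (ENNReal.ofReal (3 * C₁ * Cp * φ ^ c) *
                (∫⁻ β in rich, ENNReal.ofReal (itg Z r c₀ Lp L T g k y β)) +
              ENNReal.ofReal (3 * C₁ * Cp * v ^ c) *
                (∫⁻ β in poor, ENNReal.ofReal (itg Z r c₀ Lp L T g k y β)) +
              ENNReal.ofReal a₃ * ENNReal.ofReal (‖g (k * L) y‖ ^ 2)) := by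
              refine lintegral_mono fun y => ?_
              rw [← ENNReal.ofReal_sum_of_nonneg fun _ _ => by positivity]
              refine (ENNReal.ofReal_le_ofReal (hpt k y)).trans (ENNReal.ofReal_add_le.trans
                (add_le_add (ENNReal.ofReal_add_le.trans (add_le_add ?_ ?_)) ?_))
              · rw [ENNReal.ofReal_mul (by positivity)]
                exact mul_le_mul_right (ofReal_integral_le _ (hitg k y)) _
              · rw [ENNReal.ofReal_mul (by positivity)]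
                exact mul_le_mul_right (ofReal_integral_le _ (hitg k y)) _
              · rw [ENNReal.ofReal_mul ha₃0]
          _ ≤ _ := by
              have hgm : Measurable fun y => ENNReal.ofReal (‖g (k * L) y‖ ^ 2) :=
                ((hg1 _).norm.pow 2).measurable.ennreal_ofReal
              rw [lintegral_three _ (hJ rich k) (hJ poor k) hgm]
              exact add_le_add le_rfl (mul_le_mul_right (hg3 _) _)
    _ ≤ _ := by
        rw [Finset.sum_add_distrib, Finset.sum_add_distrib, ← Finset.mul_sum, ← Finset.mul_sum,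
          Finset.sum_const, nsmul_eq_mul, ← ENNReal.ofReal_natCast]
        refine (add_le_add (add_le_add (mul_le_mul_right hs1 _) (mul_le_mul_right hs2 _))
          (mul_le_mul_left (ENNReal.ofReal_le_ofReal hKc) _)).trans ?_
        rw [← ENNReal.ofReal_mul (by positivity), ← ENNReal.ofReal_mul (by positivity),
          ← ENNReal.ofReal_mul ha₃0, ← ENNReal.ofReal_mul (by positivity),
          ← ENNReal.ofReal_add (by positivity) (by positivity),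
          ← ENNReal.ofReal_add (by positivity) (by positivity)]
        refine ENNReal.ofReal_le_ofReal ?_
        have f1 : φ ^ c = (Cb * A) ^ c * σ ^ (c / 2) := by
          rw [hφ, Real.mul_rpow (by positivity) (by positivity), Real.sqrt_eq_rpow,
            ← Real.rpow_mul hσ.le]
          congr 2; ring
        have f2 : (A * √σ) ^ (1 / ((d : ℝ) + 2)) =
            A ^ (1 / ((d : ℝ) + 2)) * σ ^ (1 / (2 * ((d : ℝ) + 2))) := by
          rw [Real.mul_rpow hA0 (by positivity), Real.sqrt_eq_rpow, ← Real.rpow_mul hσ.le]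
          congr 2; field_simp
        have f3 : L * (A / r) ^ (2 / ((d : ℝ) + 2)) =
            A ^ (2 / ((d : ℝ) + 2)) * (L * (1 / r) ^ (2 / ((d : ℝ) + 2))) := by
          rw [div_eq_mul_one_div A, Real.mul_rpow hA0 (by positivity)]; ring
        have f4 : σ ^ (c / 2) ≤ 3 ^ (c / 2) := Real.rpow_le_rpow hσ.le hσ3 (by positivity)
        have f5 : 3 * 2 ^ d * Real.exp (-T) + Real.exp (-D) ≤
            6 * 2 ^ d * (Real.exp (-T) + Real.exp (-D)) := by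
          have h2 : (1 : ℝ) ≤ 2 ^ d := one_le_pow₀ (by norm_num)
          nlinarith only [h2, Real.exp_pos (-T), Real.exp_pos (-(D : ℝ))]
        rw [f1, f2, f3, ha₃]
        exact final_arith hC₁0 hCs hCt hCp (by positivity) (by positivity) (by positivity)
          (by positivity) (by positivity) (by positivity) (by positivity) f4 (by positivity)
          (by positivity) (by positivity) herr (by positivity) f5 (by positivity) (by positivity)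
          (one_le_pow₀ (by norm_num))

end Crest.Agent.N76.II.B
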